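import Mathlib

/-!
# P125: definitions of the statement
-/

namespace Vale.Agent.N125

open Filter Topology

/-- Markov type `p` with constant `K`: for every stationary reversible chain on a finite set `S`
(initial distribution `π`, transition matrix `P`), every `f : S → X` and every `t ≥ 1`,
`E ‖f(Z_t) - f(Z_0)‖ ^ p ≤ K ^ p t E ‖f(Z_1) - f(Z_0)‖ ^ p`. -/
def MarkovTypeWith (X : Type*) [NormedAddCommGroup X] (p K : ℝ) : Prop :=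
  ∀ (S : Type) [Fintype S] [DecidableEq S] (π : S → ℝ) (P : Matrix S S ℝ),
    (∀ i, 0 ≤ π i) → ∑ i, π i = 1 → (∀ i j, 0 ≤ P i j) → (∀ i, ∑ j, P i j = 1) →
    (∀ i j, π i * P i j = π j * P j i) → ∀ (f : S → X) (t : ℕ), 1 ≤ t →
      ∑ i, ∑ j, π i * (P ^ t) i j * ‖f j - f i‖ ^ p ≤
        K ^ p * t * ∑ i, ∑ j, π i * P i j * ‖f j - f i‖ ^ p

/-- Markov type `p`. -/
def MarkovType (X : Type*) [NormedAddCommGroup X] (p : ℝ) : Prop :=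
  ∃ K : ℝ, 0 ≤ K ∧ MarkovTypeWith X p K

/-- The inequality `E ‖f(Z_t) - f(Z_0)‖ ^ p ≤ c E ‖f(Z_1) - f(Z_0)‖ ^ p` at the one time `t`, for
all symmetric stochastic matrices (uniform initial distribution). -/
def OneTime (X : Type*) [NormedAddCommGroup X] (p : ℝ) (t : ℕ) (c : ℝ) : Prop :=
  ∀ (S : Type) [Fintype S] [DecidableEq S] (P : Matrix S S ℝ),
    (∀ i j, 0 ≤ P i j) → (∀ i, ∑ j, P i j = 1) → (∀ i j, P i j = P j i) → ∀ f : S → X,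
      ∑ i, ∑ j, (P ^ t) i j * ‖f j - f i‖ ^ p ≤ c * ∑ i, ∑ j, P i j * ‖f j - f i‖ ^ p

variable {X : Type*} [NormedAddCommGroup X] [NormedSpace ℝ X]

/-- `N` is an equivalent norm: `a ‖x‖ ≤ N x ≤ b ‖x‖` with `a, b > 0`. -/
def Equivalent (N : Seminorm ℝ X) : Prop :=
  ∃ a b : ℝ, 0 < a ∧ 0 < b ∧ ∀ x, a * ‖x‖ ≤ N x ∧ N x ≤ b * ‖x‖

/-- `N` is uniformly convex. -/
def UniformlyConvex (N : Seminorm ℝ X) : Prop :=
  ∀ ε : ℝ, 0 < ε → ε ≤ 2 → ∃ δ : ℝ, 0 < δ ∧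
    ∀ x y : X, N x ≤ 1 → N y ≤ 1 → ε ≤ N (x - y) → N ((1 / 2 : ℝ) • (x + y)) ≤ 1 - δ

/-- The modulus of smoothness `ρ(τ)` of `N`. -/
noncomputable def rho (N : Seminorm ℝ X) (τ : ℝ) : ℝ :=
  sSup {r : ℝ | ∃ x y : X, N x = 1 ∧ N y = 1 ∧ r = (N (x + τ • y) + N (x - τ • y)) / 2 - 1}

/-- `N` is uniformly smooth: `ρ(τ) / τ → 0` as `τ → 0+`. -/
def UniformlySmooth (N : Seminorm ℝ X) : Prop :=
  Tendsto (fun τ : ℝ => rho N τ / τ) (𝓝[>] 0) (𝓝 0)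

/-- `X` admits an equivalent uniformly convex norm. -/
def Superreflexive (X : Type*) [NormedAddCommGroup X] [NormedSpace ℝ X] : Prop :=
  ∃ N : Seminorm ℝ X, Equivalent N ∧ UniformlyConvex N

end Vale.Agent.N125
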