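import Mathlib

/-!
# P125: dyadic martingales as binary trees, growth in a uniformly smooth space
-/

namespace Vale.Agent.N125

open Finset

universe u

/-- finite dyadic martingales: at a node the increment is `y` or `-y` -/
inductive Tr (X : Type u) : Type u
  | leaf : Tr X
  | node : X → Tr X → Tr X → Tr X

variable {X : Type u} [AddCommGroup X]

/-- expectation of a function of the terminal position -/
noncomputable def ex (F : X → ℝ) : Tr X → X → ℝ
  | .leaf, x => F x
  | .node y l r, x => (ex F l (x + y) + ex F r (x - y)) / 2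

/-- expected sum of `g` over the increments -/
noncomputable def en (g : X → ℝ) : Tr X → ℝ
  | .leaf => 0
  | .node y l r => g y + (en g l + en g r) / 2

/-- largest sum of `g` over the increments of a path -/
noncomputable def pm (g : X → ℝ) : Tr X → ℝ
  | .leaf => 0
  | .node y l r => g y + max (pm g l) (pm g r)

/-- all increments have the property `P` -/
def allP (P : X → Prop) : Tr X → Prop
  | .leaf => True
  | .node y l r => P y ∧ allP P l ∧ allP P r

/-- apply a map to all increments -/
def mp (φ : X → X) : Tr X → Tr X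
  | .leaf => .leaf
  | .node y l r => .node (φ y) (mp φ l) (mp φ r)

open Classical in
/-- largest number of nonzero increments of a path -/
noncomputable def dep : Tr X → ℕ
  | .leaf => 0
  | .node y l r => (if y = 0 then 0 else 1) + max (dep l) (dep r)

open Classical in
/-- stop after `b` nonzero increments -/
noncomputable def cut : ℕ → Tr X → Tr X
  | _, .leaf => .leaf
  | b, .node y l r => if y = 0 then .node y (cut b l) (cut b r) else
      if b = 0 then .leaf else .node y (cut (b - 1) l) (cut (b - 1) r)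

theorem ex_mono {F G : X → ℝ} (h : ∀ z, F z ≤ G z) (T : Tr X) : ∀ x, ex F T x ≤ ex G T x := by
  induction T with
  | leaf => exact h
  | node y l r ihl ihr =>
    intro x
    simp only [ex]
    linarith [ihl (x + y), ihr (x - y)]

theorem ex_lin (F G : X → ℝ) (a b c : ℝ) (T : Tr X) :
    ∀ x, ex (fun z => a + b * F z + c * G z) T x = a + b * ex F T x + c * ex G T x := by
  induction T with
  | leaf => intro x; rfl
  | node y l r ihl ihr =>
    intro x
    simp only [ex, ihl, ihr]
    ring

theorem ex_shift (F : X → ℝ) (a : X) (T : Tr X) :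
    ∀ x, ex (fun z => F (z - a)) T x = ex F T (x - a) := by
  induction T with
  | leaf => intro x; rfl
  | node y l r ihl ihr =>
    intro x
    simp only [ex, ihl, ihr]
    rw [add_sub_right_comm, sub_right_comm]

theorem ex_jensen {F : X → ℝ} (h : ∀ x y, F x ≤ (F (x + y) + F (x - y)) / 2) (T : Tr X) :
    ∀ x, F x ≤ ex F T x := by
  induction T with
  | leaf => intro x; exact le_rfl
  | node y l r ihl ihr =>
    intro x
    simp only [ex]
    linarith [ihl (x + y), ihr (x - y), h x y]

theorem ex_dep_zero (F : X → ℝ) (T : Tr X) : dep T = 0 → ∀ x, ex F T x = F x := by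
  induction T with
  | leaf => intro _ x; rfl
  | node y l r ihl ihr =>
    intro h x
    simp only [dep] at h
    have hy : y = 0 := by
      by_contra hy
      rw [if_neg hy] at h
      omega
    simp only [ex, ihl (by omega), ihr (by omega), hy, add_zero, sub_zero]
    ring

omit [AddCommGroup X] in
theorem en_nonneg {g : X → ℝ} (hg : ∀ y, 0 ≤ g y) (T : Tr X) : 0 ≤ en g T := by
  induction T with
  | leaf => exact le_rfl
  | node y l r ihl ihr =>
    simp only [en]
    linarith [hg y]

omit [AddCommGroup X] in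
theorem pm_nonneg {g : X → ℝ} (hg : ∀ y, 0 ≤ g y) (T : Tr X) : 0 ≤ pm g T := by
  induction T with
  | leaf => exact le_rfl
  | node y l r ihl ihr =>
    simp only [pm]
    linarith [hg y, le_max_left (pm g l) (pm g r)]

omit [AddCommGroup X] in
theorem allP_mono {P Q : X → Prop} (h : ∀ y, P y → Q y) (T : Tr X) : allP P T → allP Q T := by
  induction T with
  | leaf => exact id
  | node y l r ihl ihr => exact fun h' => ⟨h y h'.1, ihl h'.2.1, ihr h'.2.2⟩

omit [AddCommGroup X] in
theorem allP_and {P Q : X → Prop} (T : Tr X) :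
    allP P T → allP Q T → allP (fun y => P y ∧ Q y) T := by
  induction T with
  | leaf => exact fun _ _ => trivial
  | node y l r ihl ihr =>
    exact fun h h' => ⟨⟨h.1, h'.1⟩, ihl h.2.1 h'.2.1, ihr h.2.2 h'.2.2⟩

omit [AddCommGroup X] in
theorem allP_mp {P : X → Prop} (φ : X → X) (T : Tr X) :
    allP (fun y => P (φ y)) T → allP P (mp φ T) := by
  induction T with
  | leaf => exact id
  | node y l r ihl ihr => exact fun h => ⟨h.1, ihl h.2.1, ihr h.2.2⟩

omit [AddCommGroup X] in
theorem allP_of_pm {g : X → ℝ} (hg : ∀ y, 0 ≤ g y) (T : Tr X) :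
    ∀ s, pm g T ≤ s → allP (fun y => g y ≤ s) T := by
  induction T with
  | leaf => exact fun _ _ => trivial
  | node y l r ihl ihr =>
    intro s h
    simp only [pm] at h
    have h1 := le_max_left (pm g l) (pm g r)
    have h2 := le_max_right (pm g l) (pm g r)
    have h3 := pm_nonneg hg l
    exact ⟨by linarith, ihl s (by linarith [hg y]), ihr s (by linarith [hg y])⟩

omit [AddCommGroup X] in
theorem exists_allP {P : ℕ → X → Prop} (hm : ∀ k k' y, k ≤ k' → P k y → P k' y)
    (h : ∀ y, ∃ k, P k y) (T : Tr X) : ∃ k, allP (P k) T := by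
  induction T with
  | leaf => exact ⟨0, trivial⟩
  | node y l r ihl ihr =>
    obtain ⟨a, ha⟩ := h y
    obtain ⟨b, hb⟩ := ihl
    obtain ⟨c, hc⟩ := ihr
    exact ⟨a + b + c, hm _ _ y (by omega) ha, allP_mono (fun z => hm _ _ z (by omega)) l hb,
      allP_mono (fun z => hm _ _ z (by omega)) r hc⟩

omit [AddCommGroup X] in
theorem en_mp_le {g g' : X → ℝ} {c : ℝ} (φ : X → X) (T : Tr X) :
    allP (fun y => g' (φ y) ≤ c * g y) T → en g' (mp φ T) ≤ c * en g T := by
  induction T with
  | leaf => intro _; simp [mp, en]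
  | node y l r ihl ihr =>
    intro h
    simp only [mp, en]
    linarith [h.1, ihl h.2.1, ihr h.2.2]

omit [AddCommGroup X] in
theorem pm_mp_le {g : X → ℝ} (φ : X → X) (h : ∀ y, g (φ y) ≤ g y) (T : Tr X) :
    pm g (mp φ T) ≤ pm g T := by
  induction T with
  | leaf => exact le_rfl
  | node y l r ihl ihr =>
    simp only [mp, pm]
    exact add_le_add (h y) (max_le_max ihl ihr)

theorem dep_mp_le {g : X → ℝ} (hg : ∀ y, 0 ≤ g y) {c : ℝ} (φ : X → X)
    (h : ∀ y, φ y ≠ 0 → c ≤ g y) (T : Tr X) : (dep (mp φ T) : ℝ) * c ≤ pm g T := by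
  induction T with
  | leaf => simp [mp, dep, pm]
  | node y l r ihl ihr =>
    simp only [mp, dep, pm]
    have h1 : ((max (dep (mp φ l)) (dep (mp φ r)) : ℕ) : ℝ) * c ≤ max (pm g l) (pm g r) := by
      rcases le_total (dep (mp φ l)) (dep (mp φ r)) with h2 | h2
      · rw [max_eq_right h2]; exact ihr.trans (le_max_right _ _)
      · rw [max_eq_left h2]; exact ihl.trans (le_max_left _ _)
    rw [Nat.cast_add, add_mul]
    refine add_le_add ?_ h1
    split_ifs with h2
    · simpa using hg y
    · simpa using h y h2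

theorem dep_cut (T : Tr X) : ∀ b, dep (cut b T) ≤ b := by
  induction T with
  | leaf => intro b; simp [cut, dep]
  | node y l r ihl ihr =>
    intro b
    simp only [cut]
    split_ifs with h1 h2
    · simp only [dep, if_pos h1]
      have := ihl b
      have := ihr b
      omega
    · simp [dep]
    · simp only [dep, if_neg h1]
      have := ihl (b - 1)
      have := ihr (b - 1)
      omega

theorem block {F Φ g : X → ℝ} {κ : ℝ} {n : ℕ}
    (ih : ∀ T x, dep T ≤ n → ex F T x ≤ Φ x + κ * en g T) (T : Tr X) :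
    ∀ x b, dep T ≤ b + n → ex F T x ≤ ex Φ (cut b T) x + κ * (en g T - en g (cut b T)) := by
  induction T with
  | leaf =>
    intro x b _
    simpa [cut, ex, en] using ih .leaf x (by simp [dep])
  | node y l r ihl ihr =>
    intro x b h
    simp only [cut]
    split_ifs with h1 h2
    · simp only [dep, if_pos h1] at h
      simp only [ex, en]
      linarith [ihl (x + y) b (by omega), ihr (x - y) b (by omega)]
    · have := ih (.node y l r) x (by omega)
      simp only [ex, en] at this ⊢
      linarith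
    · simp only [dep, if_neg h1] at h
      simp only [ex, en]
      linarith [ihl (x + y) (b - 1) (by omega), ihr (x - y) (b - 1) (by omega)]

variable [Module ℝ X] (N : Seminorm ℝ X)

theorem mid_le (x y : X) : 2 * N x ≤ N (x + y) + N (x - y) := by
  have h := map_add_le_add N (x + y) (x - y)
  rw [show x + y + (x - y) = (2 : ℝ) • x by rw [two_smul]; abel, map_smul_eq_mul] at h
  simpa using h

/-- the martingales with at most `n` nonzero increments grow with the constant `μ` -/
def Good (n : ℕ) (μ : ℝ) : Prop :=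
  ∀ T : Tr X, dep T ≤ n → ex (fun z => N z ^ 2) T 0 ≤ μ * en (fun z => N z ^ 2) T

/-- the smoothness which is used -/
def Sm (m : ℕ) : Prop :=
  ∀ x d, N (x + d) ^ 2 + N (x - d) ^ 2 ≤ (2 + 1 / (m : ℝ)) * N x ^ 2 + (m : ℝ) / 48 * N d ^ 2

variable {N}

theorem good_one : Good N 1 1 := by
  intro T
  induction T with
  | leaf => intro _; simp [ex, en]
  | node y l r ihl ihr =>
    intro h
    have h1 := en_nonneg (g := fun z => N z ^ 2) (fun _ => sq_nonneg _) l
    have h2 := en_nonneg (g := fun z => N z ^ 2) (fun _ => sq_nonneg _) r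
    by_cases hy : y = 0
    · simp only [dep, if_pos hy] at h
      subst hy
      simp only [ex, en, add_zero, sub_zero]
      linarith [ihl (by omega), ihr (by omega), sq_nonneg (N 0)]
    · simp only [dep, if_neg hy] at h
      simp only [ex, en]
      rw [ex_dep_zero _ l (by omega), ex_dep_zero _ r (by omega), zero_add, zero_sub,
        map_neg_eq_map]
      linarith

theorem sm_step {m : ℕ} (h : Sm N m) (T : Tr X) (x : X) :
    ex (fun z => N z ^ 2) T x ≤
      (1 + 1 / (m : ℝ)) * N x ^ 2 + (m : ℝ) / 48 * ex (fun z => N z ^ 2) T 0 := by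
  have h1 := ex_mono (F := fun z => N z ^ 2) (G := fun z => (2 + 1 / (m : ℝ)) * N x ^ 2 +
    (m : ℝ) / 48 * N (z - x) ^ 2 + (-1) * N (x + x - z) ^ 2) (fun z => by
      have := h x (z - x)
      rw [add_sub_cancel, show x - (z - x) = x + x - z by abel] at this
      linarith) T x
  rw [ex_lin (fun z => N (z - x) ^ 2) (fun z => N (x + x - z) ^ 2),
    ex_shift (fun z => N z ^ 2), sub_self] at h1
  have h2 := ex_jensen (F := fun z => N (x + x - z) ^ 2) (fun a b => by
    have := mid_le N (x + x - a) b
    rw [show x + x - (a + b) = x + x - a - b by abel, show x + x - (a - b) = x + x - a + b by abel]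
    have h0 := apply_nonneg N (x + x - a)
    nlinarith [sq_nonneg (N (x + x - a + b) - N (x + x - a - b))]) T x
  simp only [add_sub_cancel_right] at h2
  linarith

theorem good_mul {m n : ℕ} {μ : ℝ} (hm : 1 ≤ m) (h : Sm N m) (hμ : 0 ≤ μ) (hn : Good N n μ) :
    Good N (m * n) ((m : ℝ) / 16 * μ) := by
  have hm0 : (0 : ℝ) < m := by exact_mod_cast hm
  have key : ∀ j, j ≤ m → ∀ T x, dep T ≤ j * n → ex (fun z => N z ^ 2) T x ≤
      (1 + 1 / (m : ℝ)) ^ j * N x ^ 2 + (m : ℝ) / 16 * μ * en (fun z => N z ^ 2) T := by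
    intro j
    induction j with
    | zero =>
      intro _ T x hT
      rw [ex_dep_zero _ T (by omega)]
      have := en_nonneg (g := fun z => N z ^ 2) (fun _ => sq_nonneg _) T
      have : 0 ≤ (m : ℝ) / 16 * μ * en (fun z => N z ^ 2) T := by positivity
      linarith
    | succ j ih =>
      intro hj T x hT
      have b1 := block (Φ := fun x => (1 + 1 / (m : ℝ)) ^ j * N x ^ 2) (ih (by omega)) T x n
        (by rw [Nat.succ_mul] at hT; omega)
      have b2 := ex_lin (fun z => N z ^ 2) (fun _ => 0) 0 ((1 + 1 / (m : ℝ)) ^ j) 0 (cut n T) x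
      simp only [zero_add, zero_mul, add_zero] at b2
      rw [b2] at b1
      have b3 := sm_step h (cut n T) x
      have b4 := hn (cut n T) (dep_cut T n)
      have b5 : (1 + 1 / (m : ℝ)) ^ j ≤ 3 := by
        have c1 : 1 + 1 / (m : ℝ) ≤ Real.exp (1 / m) := by
          linarith [Real.add_one_le_exp (1 / (m : ℝ))]
        have c2 := pow_le_pow_left₀ (by positivity) c1 j
        rw [← Real.exp_nat_mul] at c2
        have c3 : (j : ℝ) * (1 / m) ≤ 1 := by
          rw [mul_one_div, div_le_one hm0]
          exact_mod_cast (by omega : j ≤ m)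
        linarith [Real.exp_le_exp.2 c3, Real.exp_one_lt_d9]
      have b0 : (0 : ℝ) ≤ (1 + 1 / (m : ℝ)) ^ j := by positivity
      have b6 := mul_le_mul_of_nonneg_left (b3.trans (add_le_add le_rfl
        (mul_le_mul_of_nonneg_left b4 (by positivity)))) b0
      have b7 := en_nonneg (g := fun z => N z ^ 2) (fun _ => sq_nonneg _) (cut n T)
      have b8 := mul_le_mul_of_nonneg_right b5
        (show 0 ≤ (m : ℝ) / 48 * (μ * en (fun z => N z ^ 2) (cut n T)) by positivity)
      rw [pow_succ]
      linarith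
  intro T hT
  have := key m le_rfl T 0 hT
  simpa using this

theorem good_pow {m : ℕ} (hm : 1 ≤ m) (h : Sm N m) (k : ℕ) :
    Good N (m ^ k) (((m : ℝ) / 16) ^ k) := by
  induction k with
  | zero => simpa using good_one
  | succ k ih =>
    rw [pow_succ', pow_succ']
    exact good_mul hm h (by positivity) ih

theorem ex_split (φ ψ : X → X) (h : ∀ y, φ y + ψ y = y) (T : Tr X) : ∀ x x',
    ex (fun z => N z ^ 2) T (x + x') ≤
      2 * ex (fun z => N z ^ 2) (mp φ T) x + 2 * ex (fun z => N z ^ 2) (mp ψ T) x' := by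
  induction T with
  | leaf =>
    intro x x'
    simp only [mp, ex]
    have := pow_le_pow_left₀ (apply_nonneg N _) (map_add_le_add N x x') 2
    nlinarith [sq_nonneg (N x - N x')]
  | node y l r ihl ihr =>
    intro x x'
    simp only [mp, ex]
    have h1 := ihl (x + φ y) (x' + ψ y)
    have h2 := ihr (x - φ y) (x' - ψ y)
    rw [show x + φ y + (x' + ψ y) = x + x' + (φ y + ψ y) by abel, h] at h1
    rw [show x - φ y + (x' - ψ y) = x + x' - (φ y + ψ y) by abel, h] at h2
    linarith

theorem ex_null (T : Tr X) : allP (fun y => N y = 0) T →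
    ∀ x, ex (fun z => N z ^ 2) T x ≤ N x ^ 2 := by
  induction T with
  | leaf => intro _ x; exact le_rfl
  | node y l r ihl ihr =>
    intro h x
    simp only [ex]
    have h1 := map_add_le_add N x y
    have h2 := map_sub_le_add N x y
    rw [h.1, add_zero] at h1 h2
    have h3 := pow_le_pow_left₀ (apply_nonneg N _) h1 2
    have h4 := pow_le_pow_left₀ (apply_nonneg N _) h2 2
    linarith [ihl h.2.1 (x + y), ihr h.2.2 (x - y)]

theorem sq_le_level {a c q : ℝ} (ha : 0 ≤ a) (hq : 1 ≤ q) (hq2 : q ≤ 2) (h : a ^ q ≤ c) :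
    a ^ 2 ≤ c ^ (2 / q - 1) * a ^ q := by
  have hq0 : 0 < q := by linarith
  have hγ : 0 ≤ 2 / q - 1 := by rw [sub_nonneg, one_le_div hq0]; exact hq2
  have e : a ^ 2 = (a ^ q) ^ (2 / q - 1) * a ^ q := by
    rw [← Real.rpow_mul ha, ← Real.rpow_add' ha (by
      rw [show q * (2 / q - 1) + q = 2 by field_simp; ring]; norm_num),
      show q * (2 / q - 1) + q = 2 by field_simp; ring, Real.rpow_two]
  rw [e]
  exact mul_le_mul_of_nonneg_right (Real.rpow_le_rpow (by positivity) h hγ) (by positivity)

theorem levels {m : ℕ} (hm : 1 ≤ m) (h : Sm N m) {q s : ℝ} (hq : 1 ≤ q) (hq2 : q ≤ 2)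
    (hmq : (m : ℝ) ^ (2 - 2 / q) ≤ 4) (hs : 0 < s) (k : ℕ) : ∀ (j : ℕ) (T : Tr X),
    pm (fun y => N y ^ q) T ≤ s →
    allP (fun y => N y ^ q ≤ s / m ^ j ∧ (N y = 0 ∨ s / m ^ (j + k) < N y ^ q)) T →
    ex (fun z => N z ^ 2) T 0 ≤
      (m : ℝ) / 4 * s ^ (2 / q - 1) * (1 / 4) ^ j * en (fun y => N y ^ q) T := by
  have hm0 : (0 : ℝ) < m := by exact_mod_cast hm
  have hg : ∀ y, 0 ≤ N y ^ q := fun y => Real.rpow_nonneg (apply_nonneg N y) q
  have hg0 : N 0 ^ q = 0 := by rw [map_zero, Real.zero_rpow (by linarith)]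
  induction k with
  | zero =>
    intro j T _ hT
    have h1 := ex_null T (allP_mono (fun y hy => hy.2.resolve_right (not_lt.2 hy.1)) T hT) 0
    have h2 := en_nonneg hg T
    rw [map_zero] at h1
    refine h1.trans ?_
    rw [zero_pow two_ne_zero]
    positivity
  | succ k ih =>
    intro j T hpm hT
    classical
    set c : ℝ := s / m ^ (j + 1) with hc
    have hc0 : 0 < c := by positivity
    have b0 := ex_split (N := N) (fun y => if c < N y ^ q then y else 0)
      (fun y => if c < N y ^ q then 0 else y) (fun y => by split_ifs <;> simp) T 0 0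
    rw [add_zero] at b0
    have hψ : ∀ y, N (if c < N y ^ q then 0 else y) ^ q ≤ N y ^ q := fun y => by
      split_ifs
      · rw [hg0]; exact hg y
      · exact le_rfl
    have b1 := ih (j + 1) (mp (fun y => if c < N y ^ q then 0 else y) T)
      ((pm_mp_le (g := fun y => N y ^ q) _ hψ T).trans hpm) (allP_mp _ T (allP_mono (fun y hy => by
        split_ifs with h1
        · rw [hg0]; exact ⟨hc0.le, Or.inl (map_zero N)⟩
        · rw [show j + 1 + k = j + (k + 1) by omega]
          exact ⟨not_lt.1 h1, hy.2⟩) T hT))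
    have b2 := en_mp_le (g := fun y => N y ^ q) (g' := fun y => N y ^ q) (c := 1)
      (fun y => if c < N y ^ q then 0 else y) T
      (allP_mono (fun y _ => by rw [one_mul]; exact hψ y) T hT)
    have b3 := dep_mp_le hg (c := c) (fun y => if c < N y ^ q then y else 0)
      (fun y hy => by
        by_contra h1
        exact hy (if_neg fun h2 => h1 h2.le)) T
    have b4 : dep (mp (fun y => if c < N y ^ q then y else 0) T) ≤ m ^ (j + 1) := by
      have h1 := b3.trans hpm
      generalize dep (mp (fun y => if c < N y ^ q then y else 0) T) = d at h1 ⊢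
      rw [hc, ← mul_div_assoc, div_le_iff₀ (by positivity), mul_comm s] at h1
      exact_mod_cast le_of_mul_le_mul_right h1 hs
    have b5 := good_pow hm h (j + 1) _ b4
    have b6 := en_mp_le (g := fun y => N y ^ q) (g' := fun y => N y ^ 2)
      (c := (s / m ^ j) ^ (2 / q - 1)) (fun y => if c < N y ^ q then y else 0) T
      (allP_mono (fun y hy => by
        split_ifs
        · exact sq_le_level (apply_nonneg N y) hq hq2 hy.1
        · rw [map_zero, zero_pow two_ne_zero]
          exact mul_nonneg (by positivity) (hg y)) T hT)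
    have b7 : ((m : ℝ) / 16) ^ (j + 1) * (s / m ^ j) ^ (2 / q - 1) ≤
        (m : ℝ) / 16 * s ^ (2 / q - 1) * (1 / 4) ^ j := by
      have e1 : ((m : ℝ) ^ j) ^ (2 / q - 1) = ((m : ℝ) ^ (2 / q - 1)) ^ j := by
        rw [← Real.rpow_natCast, ← Real.rpow_natCast, ← Real.rpow_mul hm0.le,
          ← Real.rpow_mul hm0.le, mul_comm]
      have e2 : (m : ℝ) / 16 / (m : ℝ) ^ (2 / q - 1) ≤ 1 / 4 := by
        have e3 : (m : ℝ) / (m : ℝ) ^ (2 / q - 1) = (m : ℝ) ^ (2 - 2 / q) := by
          rw [show 2 - 2 / q = 1 - (2 / q - 1) by ring, Real.rpow_sub hm0 1, Real.rpow_one]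
        rw [div_right_comm, e3]
        linarith
      have e4 := pow_le_pow_left₀ (by positivity) e2 j
      rw [Real.div_rpow hs.le (by positivity), e1]
      calc _ = (m : ℝ) / 16 * s ^ (2 / q - 1) * ((m : ℝ) / 16 / (m : ℝ) ^ (2 / q - 1)) ^ j := by
            rw [div_pow _ ((m : ℝ) ^ (2 / q - 1))]; ring
        _ ≤ _ := mul_le_mul_of_nonneg_left e4 (by positivity)
    have hen := en_nonneg hg T
    have b8 := mul_le_mul_of_nonneg_left b6 (show 0 ≤ ((m : ℝ) / 16) ^ (j + 1) by positivity)
    have b9 := mul_le_mul_of_nonneg_right b7 hen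
    have b10 := mul_le_mul_of_nonneg_left b2
      (show 0 ≤ (m : ℝ) / 4 * s ^ (2 / q - 1) * (1 / 4) ^ (j + 1) by positivity)
    rw [pow_succ (1 / 4 : ℝ)] at b1 b10
    linarith

/-- growth of martingales whose increments have a bounded `ℓ_q` sum along every path -/
theorem pathwise {m : ℕ} (hm : 2 ≤ m) (h : Sm N m) {q s : ℝ} (hq : 1 ≤ q) (hq2 : q ≤ 2)
    (hmq : (m : ℝ) ^ (2 - 2 / q) ≤ 4) (hs : 0 < s) (T : Tr X)
    (hT : pm (fun y => N y ^ q) T ≤ s) :
    ex (fun z => N z ^ 2) T 0 ≤ (m : ℝ) / 4 * s ^ (2 / q - 1) * en (fun y => N y ^ q) T := by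
  have hm1 : (1 : ℝ) < m := by exact_mod_cast hm
  have hg : ∀ y, 0 ≤ N y ^ q := fun y => Real.rpow_nonneg (apply_nonneg N y) q
  obtain ⟨k, hk⟩ := exists_allP (P := fun k y => N y = 0 ∨ s / (m : ℝ) ^ k < N y ^ q)
    (fun k k' y hk hy => hy.imp_right fun h1 => lt_of_le_of_lt
      (div_le_div_of_nonneg_left hs.le (by positivity) (pow_le_pow_right₀ hm1.le hk)) h1)
    (fun y => by
      rcases (apply_nonneg N y).eq_or_lt with h0 | h0
      · exact ⟨0, Or.inl h0.symm⟩
      · obtain ⟨k, hk⟩ := pow_unbounded_of_one_lt (s / N y ^ q) hm1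
        refine ⟨k, Or.inr ?_⟩
        rw [div_lt_iff₀ (by positivity)] at hk ⊢
        linarith) T
  have := levels (by omega) h hq hq2 hmq hs k 0 T hT (by
    simpa using allP_and T (allP_of_pm hg T s hT) hk)
  simpa using this

end Vale.Agent.N125
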