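import Mathlib
import Vale.Agent.N125.Tree

/-!
# P125: martingale type and the power type renorming, with uniform constants
-/

namespace Vale.Agent.N125

open Finset

universe u

variable {X : Type u} [AddCommGroup X]

/-- expectation of a function of the terminal position and of the sum of `g` over the path -/
noncomputable def ex2 (g : X → ℝ) (F : X → ℝ → ℝ) : Tr X → X → ℝ → ℝ
  | .leaf, x, s => F x s
  | .node y l r, x, s => (ex2 g F l (x + y) (s + g y) + ex2 g F r (x - y) (s + g y)) / 2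

open Classical in
/-- stop before the sum of `g` over the path exceeds the budget -/
noncomputable def stop (g : X → ℝ) : ℝ → Tr X → Tr X
  | _, .leaf => .leaf
  | b, .node y l r => if g y ≤ b then .node y (stop g (b - g y) l) (stop g (b - g y) r) else .leaf

variable {g : X → ℝ}

theorem ex2_mono (hg : ∀ y, 0 ≤ g y) {F G : X → ℝ → ℝ} (T : Tr X) : ∀ x s,
    (∀ z s', s ≤ s' → s' ≤ s + pm g T → F z s' ≤ G z s') → ex2 g F T x s ≤ ex2 g G T x s := by
  induction T with
  | leaf => intro x s h; exact h x s le_rfl (by simp [pm])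
  | node y l r ihl ihr =>
    intro x s h
    simp only [ex2]
    simp only [pm] at h
    have h1 := le_max_left (pm g l) (pm g r)
    have h2 := le_max_right (pm g l) (pm g r)
    linarith [ihl (x + y) (s + g y) fun z s' a b => h z s' (by linarith [hg y]) (by linarith),
      ihr (x - y) (s + g y) fun z s' a b => h z s' (by linarith [hg y]) (by linarith)]

theorem ex2_ex (F : X → ℝ) (T : Tr X) : ∀ x s, ex2 g (fun z _ => F z) T x s = ex F T x := by
  induction T with
  | leaf => intro x s; rfl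
  | node y l r ihl ihr => intro x s; simp only [ex2, ex, ihl, ihr]

theorem ex2_lin (F G : X → ℝ → ℝ) (a b c : ℝ) (T : Tr X) : ∀ x s,
    ex2 g (fun z s => a + b * F z s + c * G z s) T x s =
      a + b * ex2 g F T x s + c * ex2 g G T x s := by
  induction T with
  | leaf => intro x s; rfl
  | node y l r ihl ihr =>
    intro x s
    simp only [ex2, ihl, ihr]
    ring

theorem ex2_const (a : ℝ) (T : Tr X) : ∀ x s, ex2 g (fun _ _ => a) T x s = a := by
  induction T with
  | leaf => intro x s; rfl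
  | node y l r ihl ihr =>
    intro x s
    simp only [ex2, ihl, ihr]
    ring

theorem ex2_sum (F : ℕ → X → ℝ → ℝ) (c : ℕ → ℝ) (n : ℕ) (T : Tr X) : ∀ x s,
    ex2 g (fun z s => ∑ j ∈ range n, c j * F j z s) T x s =
      ∑ j ∈ range n, c j * ex2 g (F j) T x s := by
  induction T with
  | leaf => intro x s; rfl
  | node y l r ihl ihr =>
    intro x s
    simp only [ex2, ihl, ihr]
    rw [← Finset.sum_add_distrib, Finset.sum_div]
    exact Finset.sum_congr rfl fun j _ => by ring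

omit [AddCommGroup X] in
theorem pm_stop (T : Tr X) : ∀ b, 0 ≤ b → pm g (stop g b T) ≤ b := by
  induction T with
  | leaf => intro b hb; exact hb
  | node y l r ihl ihr =>
    intro b hb
    simp only [stop]
    split_ifs with h
    · simp only [pm]
      linarith [max_le (ihl (b - g y) (by linarith)) (ihr (b - g y) (by linarith))]
    · exact hb

theorem ex_nonneg {F : X → ℝ} (hF : ∀ z, 0 ≤ F z) (T : Tr X) : ∀ x, 0 ≤ ex F T x := by
  induction T with
  | leaf => exact hF
  | node y l r ihl ihr =>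
    intro x
    simp only [ex]
    linarith [ihl (x + y), ihr (x - y)]

theorem ex2_stop (hg : ∀ y, 0 ≤ g y) {F : X → ℝ} (hF : ∀ z, 0 ≤ F z) (Λ : ℝ) (T : Tr X) :
    ∀ x s, ex2 g (fun z s => if s ≤ Λ then F z else 0) T x s ≤ ex F (stop g (Λ - s) T) x := by
  induction T with
  | leaf =>
    intro x s
    simp only [ex2, stop, ex]
    split_ifs
    · exact le_rfl
    · exact hF x
  | node y l r ihl ihr =>
    intro x s
    simp only [stop]
    split_ifs with h
    · simp only [ex2, ex]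
      rw [show Λ - s - g y = Λ - (s + g y) by ring]
      linarith [ihl (x + y) (s + g y), ihr (x - y) (s + g y)]
    · simp only [ex2, ex]
      have k : ∀ (T : Tr X) x, ex2 g (fun z s => if s ≤ Λ then F z else 0) T x (s + g y) ≤ 0 := by
        intro T x
        refine (ex2_mono hg (G := fun _ _ => 0) T x _ fun z s' a _ => ?_).trans
          (ex2_const 0 T x _).le
        rw [if_neg (by linarith [not_le.1 h])]
      linarith [k l (x + y), k r (x - y), hF x]

theorem en_stop (hg : ∀ y, 0 ≤ g y) (Λ : ℝ) (T : Tr X) : ∀ x s, s ≤ Λ →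
    en g (stop g (Λ - s) T) + s ≤ ex2 g (fun _ s => min s Λ) T x s := by
  induction T with
  | leaf =>
    intro x s h
    simp only [ex2, stop, en]
    rw [min_eq_left h, zero_add]
  | node y l r ihl ihr =>
    intro x s hs
    simp only [stop]
    split_ifs with h
    · simp only [ex2, en]
      rw [show Λ - s - g y = Λ - (s + g y) by ring]
      linarith [ihl (x + y) (s + g y) (by linarith), ihr (x - y) (s + g y) (by linarith)]
    · simp only [en, zero_add]
      refine (ex2_const (g := g) s (.node y l r) x s).ge.trans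
        (ex2_mono hg _ x s fun z s' a _ => le_min a hs)

theorem ex2_rpow (hg : ∀ y, 0 ≤ g y) {ρ : ℝ} (h0 : 0 ≤ ρ) (h1 : ρ ≤ 1) (T : Tr X) : ∀ x s, 0 ≤ s →
    ex2 g (fun _ s => s ^ ρ) T x s ≤ s ^ ρ + en (fun y => g y ^ ρ) T := by
  induction T with
  | leaf => intro x s _; simp [ex2, en]
  | node y l r ihl ihr =>
    intro x s hs
    simp only [ex2, en]
    have h2 := add_nonneg hs (hg y)
    linarith [ihl (x + y) _ h2, ihr (x - y) _ h2, Real.rpow_add_le_add_rpow hs (hg y) h0 h1]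

theorem rpow_le_sq {d L q : ℝ} (hd : 0 ≤ d) (hL : 0 < L) (hq : 0 < q) (hq2 : q ≤ 2) :
    d ^ q ≤ L ^ q + L ^ (q - 2) * d ^ 2 := by
  rcases le_total d L with h | h
  · have := Real.rpow_le_rpow hd h hq.le
    have : 0 ≤ L ^ (q - 2) * d ^ 2 := by positivity
    linarith
  · have hd0 : 0 < d := hL.trans_le h
    have e : d ^ q = d ^ (q - 2) * d ^ 2 := by
      rw [Real.rpow_sub hd0, Real.rpow_two]; field_simp
    have b := Real.rpow_le_rpow_of_nonpos hL h (show q - 2 ≤ 0 by linarith)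
    have := mul_le_mul_of_nonneg_right b (sq_nonneg d)
    have : 0 ≤ L ^ q := by positivity
    linarith

theorem point_le {d s Λ q q₀ : ℝ} (hd : 0 ≤ d) (hs : 0 ≤ s) (hΛ : 0 < Λ) (hq : 0 < q)
    (hqq : q ≤ q₀) (hq2 : q₀ ≤ 2) (L : ℕ) : s ≤ Λ * 4 ^ L →
    d ^ q ≤ Λ ^ (q / q₀) + 4 * s ^ (q / q₀) + 1 * ∑ j ∈ range (L + 1),
      (Λ * 4 ^ j) ^ ((q - 2) / q₀) * if s ≤ Λ * 4 ^ j then d ^ 2 else 0 := by
  have hq0 : 0 < q₀ := by linarith
  have key : ∀ M : ℝ, 0 < M → d ^ q ≤ M ^ (q / q₀) + M ^ ((q - 2) / q₀) * d ^ 2 := by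
    intro M hM
    have := rpow_le_sq hd (show 0 < M ^ (1 / q₀) by positivity) hq (by linarith)
    rwa [← Real.rpow_mul hM.le, ← Real.rpow_mul hM.le, one_div_mul_eq_div,
      one_div_mul_eq_div] at this
  have hsρ : 0 ≤ s ^ (q / q₀) := by positivity
  induction L with
  | zero =>
    intro h
    have := key Λ hΛ
    simp only [zero_add, range_one, sum_singleton, if_pos h]
    rw [pow_zero, mul_one]
    linarith
  | succ L ih =>
    intro h
    rw [Finset.sum_range_succ _ (L + 1), if_pos h]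
    by_cases h1 : s ≤ Λ * 4 ^ L
    · have : 0 ≤ (Λ * 4 ^ (L + 1)) ^ ((q - 2) / q₀) * d ^ 2 := by positivity
      linarith [ih h1]
    · have b1 := key (Λ * 4 ^ (L + 1)) (by positivity)
      have b2 : (Λ * 4 ^ (L + 1)) ^ (q / q₀) ≤ 4 * s ^ (q / q₀) := by
        refine (Real.rpow_le_rpow (by positivity) (show _ ≤ 4 * s by
          rw [pow_succ]; linarith [not_le.1 h1]) (by positivity)).trans ?_
        rw [Real.mul_rpow (by norm_num) hs]
        refine mul_le_mul_of_nonneg_right ?_ hsρ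
        have := Real.rpow_le_rpow_of_exponent_le (show (1 : ℝ) ≤ 4 by norm_num)
          ((div_le_one hq0).2 hqq)
        rwa [Real.rpow_one] at this
      have b3 : 0 ≤ ∑ j ∈ range (L + 1),
          (Λ * 4 ^ j) ^ ((q - 2) / q₀) * if s ≤ Λ * 4 ^ j then d ^ 2 else 0 :=
        Finset.sum_nonneg fun j _ => mul_nonneg (by positivity) (by split_ifs <;> positivity)
      have b4 : 0 ≤ Λ ^ (q / q₀) := by positivity
      linarith

theorem sum_min_le {s ρ c : ℝ} (hs : 0 ≤ s) (h0 : 1 / 2 ≤ ρ) (h1 : ρ < 1) (hc0 : 0 ≤ c)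
    (hc : 1 + c * 4 ^ (ρ - 1) = c) (n : ℕ) : ∀ Λ : ℝ, 0 < Λ →
    ∑ j ∈ range n, (Λ * 4 ^ j) ^ (ρ - 1) * min s (Λ * 4 ^ j) ≤
      if s ≤ Λ then c * s * Λ ^ (ρ - 1) else (c + 2) * s ^ ρ - Λ ^ ρ := by
  have hsρ : 0 ≤ s ^ ρ := by positivity
  have hcs : 0 ≤ c * s ^ ρ := by positivity
  induction n with
  | zero =>
    intro Λ hΛ
    rw [Finset.sum_range_zero]
    split_ifs with h
    · positivity
    · have := Real.rpow_le_rpow hΛ.le (not_le.1 h).le (show 0 ≤ ρ by linarith)
      linarith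
  | succ n ih =>
    intro Λ hΛ
    rw [Finset.sum_range_succ', pow_zero, mul_one]
    have b := ih (4 * Λ) (by positivity)
    have e : ∀ j : ℕ, Λ * 4 ^ (j + 1) = 4 * Λ * 4 ^ j := fun j => by ring
    simp only [e]
    split_ifs with h
    · rw [if_pos (by linarith), Real.mul_rpow (by norm_num) hΛ.le] at b
      rw [min_eq_left h]
      have : c * s * (4 ^ (ρ - 1) * Λ ^ (ρ - 1)) + Λ ^ (ρ - 1) * s = c * s * Λ ^ (ρ - 1) := by
        linear_combination (s * Λ ^ (ρ - 1)) * hc
      linarith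
    · have h' := not_le.1 h
      have hs0 : 0 < s := hΛ.trans h'
      have e1 : Λ ^ (ρ - 1) * Λ = Λ ^ ρ := by rw [Real.rpow_sub_one hΛ.ne']; field_simp
      have b1 := Real.rpow_le_rpow hΛ.le h'.le (show 0 ≤ ρ by linarith)
      rw [min_eq_right h'.le, e1]
      split_ifs at b with h2
      · have b2 := Real.rpow_le_rpow_of_nonpos hs0 h2 (show ρ - 1 ≤ 0 by linarith)
        have b3 := mul_le_mul_of_nonneg_left b2 (mul_nonneg hc0 hs)
        have e2 : c * s * s ^ (ρ - 1) = c * s ^ ρ := by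
          rw [Real.rpow_sub_one hs0.ne']; field_simp
        linarith
      · rw [Real.mul_rpow (by norm_num) hΛ.le] at b
        have b2 : (2 : ℝ) ≤ 4 ^ ρ := by
          have := Real.rpow_le_rpow_of_exponent_le (show (1 : ℝ) ≤ 4 by norm_num) h0
          rwa [← Real.sqrt_eq_rpow, show (4 : ℝ) = 2 ^ 2 by norm_num,
            Real.sqrt_sq (by norm_num), show (2 : ℝ) ^ 2 = 4 by norm_num] at this
        have b3 := mul_le_mul_of_nonneg_right b2 (show 0 ≤ Λ ^ ρ by positivity)
        linarith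

theorem sum_min_le' {s ρ c : ℝ} (hs : 0 ≤ s) (h0 : 1 / 2 ≤ ρ) (h1 : ρ < 1) (hc0 : 0 ≤ c)
    (hc : 1 + c * 4 ^ (ρ - 1) = c) (n : ℕ) {Λ : ℝ} (hΛ : 0 < Λ) :
    ∑ j ∈ range n, (Λ * 4 ^ j) ^ (ρ - 1) * min s (Λ * 4 ^ j) ≤ (c + 2) * s ^ ρ := by
  refine (sum_min_le hs h0 h1 hc0 hc n Λ hΛ).trans ?_
  have hsρ : 0 ≤ s ^ ρ := by positivity
  split_ifs with h
  · rcases hs.eq_or_lt with h2 | h2
    · subst h2
      rw [mul_zero, zero_mul]
      positivity
    · have b2 := Real.rpow_le_rpow_of_nonpos h2 h (show ρ - 1 ≤ 0 by linarith)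
      have b3 := mul_le_mul_of_nonneg_left b2 (mul_nonneg hc0 hs)
      have e2 : c * s * s ^ (ρ - 1) = c * s ^ ρ := by
        rw [Real.rpow_sub_one h2.ne']; field_simp
      linarith
  · have : 0 ≤ Λ ^ ρ := by positivity
    linarith

variable [Module ℝ X] {N : Seminorm ℝ X}

/-- dyadic martingale type `q` -/
theorem mart_type {K q q₀ c : ℝ} (hK : 0 ≤ K) (hq : 1 ≤ q) (hqq : q < q₀) (hq2 : q₀ ≤ 2)
    (hc0 : 0 ≤ c) (hc : 1 + c * 4 ^ (q / q₀ - 1) = c)
    (h : ∀ s, 0 < s → ∀ T : Tr X, pm (fun y => N y ^ q₀) T ≤ s →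
      ex (fun z => N z ^ 2) T 0 ≤ K * s ^ (2 / q₀ - 1) * en (fun y => N y ^ q₀) T) (T : Tr X) :
    ex (fun z => N z ^ q) T 0 ≤ (4 + K * (c + 2)) * en (fun y => N y ^ q) T := by
  have hq0 : 0 < q₀ := by linarith
  have hg : ∀ y, 0 ≤ N y ^ q₀ := fun y => Real.rpow_nonneg (apply_nonneg N y) _
  have hρ0 : 1 / 2 ≤ q / q₀ := by rw [le_div_iff₀ hq0]; linarith
  have hρ1 : q / q₀ < 1 := (div_lt_one hq0).2 hqq
  refine le_of_forall_pos_le_add fun δ hδ => ?_
  obtain ⟨Λ, hΛ, hΛδ⟩ : ∃ Λ : ℝ, 0 < Λ ∧ Λ ^ (q / q₀) = δ :=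
    ⟨δ ^ (q / q₀)⁻¹, by positivity, Real.rpow_inv_rpow hδ.le (by positivity)⟩
  obtain ⟨L, hL⟩ := pow_unbounded_of_one_lt (pm (fun y => N y ^ q₀) T / Λ)
    (show (1 : ℝ) < 4 by norm_num)
  rw [div_lt_iff₀ hΛ] at hL
  have b1 := ex2_mono hg (F := fun z _ => N z ^ q)
    (G := fun z s => Λ ^ (q / q₀) + 4 * s ^ (q / q₀) + 1 * ∑ j ∈ range (L + 1),
      (Λ * 4 ^ j) ^ ((q - 2) / q₀) * if s ≤ Λ * 4 ^ j then N z ^ 2 else 0) T 0 0
    fun z s a b => point_le (apply_nonneg N z) a hΛ (by linarith) hqq.le hq2 L (by linarith)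
  rw [ex2_ex, ex2_lin (fun _ s => s ^ (q / q₀)),
    ex2_sum (fun j z s => if s ≤ Λ * 4 ^ j then N z ^ 2 else 0), hΛδ] at b1
  have b2 := ex2_rpow hg (show 0 ≤ q / q₀ by linarith) hρ1.le T 0 0 le_rfl
  have e : (fun y => (N y ^ q₀) ^ (q / q₀)) = fun y => N y ^ q := by
    funext y
    rw [← Real.rpow_mul (apply_nonneg N y), mul_div_cancel₀ _ hq0.ne']
  rw [e, Real.zero_rpow (by linarith), zero_add] at b2
  have b3 : ∀ j ∈ range (L + 1), (Λ * 4 ^ j) ^ ((q - 2) / q₀) *
      ex2 (fun y => N y ^ q₀) (fun z s => if s ≤ Λ * 4 ^ j then N z ^ 2 else 0) T 0 0 ≤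
      K * ((Λ * 4 ^ j) ^ (q / q₀ - 1) *
        ex2 (fun y => N y ^ q₀) (fun _ s => min s (Λ * 4 ^ j)) T 0 0) := by
    intro j _
    have hM : 0 < Λ * 4 ^ j := by positivity
    have c1 := ex2_stop hg (F := fun z => N z ^ 2) (fun _ => sq_nonneg _) (Λ * 4 ^ j) T 0 0
    have c2 := en_stop hg (Λ * 4 ^ j) T 0 0 hM.le
    rw [sub_zero] at c1 c2
    rw [add_zero] at c2
    have c3 := (c1.trans (h _ hM _ (pm_stop T _ hM.le))).trans
      (mul_le_mul_of_nonneg_left c2 (by positivity))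
    refine (mul_le_mul_of_nonneg_left c3 (by positivity)).trans (le_of_eq ?_)
    rw [show q / q₀ - 1 = (q - 2) / q₀ + (2 / q₀ - 1) by ring, Real.rpow_add hM]
    ring
  have b4 := Finset.sum_le_sum b3
  rw [← Finset.mul_sum, ← ex2_sum (fun j _ s => min s (Λ * 4 ^ j))] at b4
  have b5 := ex2_mono hg
    (F := fun _ s => ∑ j ∈ range (L + 1), (Λ * 4 ^ j) ^ (q / q₀ - 1) * min s (Λ * 4 ^ j))
    (G := fun _ s => 0 + (c + 2) * s ^ (q / q₀) + 0 * 0) T 0 0 fun z s a _ => by
      have := sum_min_le' a hρ0 hρ1 hc0 hc (L + 1) hΛ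
      linarith
  rw [ex2_lin (fun _ s => s ^ (q / q₀)) (fun _ _ => 0)] at b5
  have b6 := mul_le_mul_of_nonneg_left b5 hK
  have b7 := mul_le_mul_of_nonneg_left b2 (show 0 ≤ K * (c + 2) by positivity)
  linarith

/-! ### the new norm -/

theorem ex_convex {q : ℝ} (hq : 1 ≤ q) {a b : ℝ} (ha : 0 ≤ a) (hb : 0 ≤ b) (hab : a + b = 1)
    (T : Tr X) : ∀ x y, ex (fun z => N z ^ q) T (a • x + b • y) ≤
      a * ex (fun z => N z ^ q) T x + b * ex (fun z => N z ^ q) T y := by
  induction T with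
  | leaf =>
    intro x y
    simp only [ex]
    have h1 := map_add_le_add N (a • x) (b • y)
    rw [map_smul_eq_mul, map_smul_eq_mul, Real.norm_of_nonneg ha, Real.norm_of_nonneg hb] at h1
    refine (Real.rpow_le_rpow (apply_nonneg N _) h1 (by linarith)).trans ?_
    exact (convexOn_rpow hq).2 (apply_nonneg N x) (apply_nonneg N y) ha hb hab
  | node w l r ihl ihr =>
    intro x y
    simp only [ex]
    have e : w = a • w + b • w := by rw [← add_smul, hab, one_smul]
    have h1 := ihl (x + w) (y + w)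
    have h2 := ihr (x - w) (y - w)
    rw [smul_add, smul_add, add_add_add_comm, ← e] at h1
    rw [smul_sub, smul_sub, sub_add_sub_comm, ← e] at h2
    linarith

theorem ex_smul {q c : ℝ} (T : Tr X) : ∀ x,
    ex (fun z => N z ^ q) (mp (fun y => c • y) T) (c • x) = |c| ^ q * ex (fun z => N z ^ q) T x := by
  induction T with
  | leaf =>
    intro x
    simp only [mp, ex]
    rw [map_smul_eq_mul, Real.norm_eq_abs, Real.mul_rpow (abs_nonneg c) (apply_nonneg N x)]
  | node w l r ihl ihr =>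
    intro x
    simp only [mp, ex]
    rw [← smul_add, ← smul_sub, ihl, ihr]
    ring

theorem en_smul {q c : ℝ} (T : Tr X) :
    en (fun z => N z ^ q) (mp (fun y => c • y) T) = |c| ^ q * en (fun z => N z ^ q) T := by
  induction T with
  | leaf => simp [mp, en]
  | node w l r ihl ihr =>
    simp only [mp, en]
    rw [ihl, ihr, map_smul_eq_mul, Real.norm_eq_abs,
      Real.mul_rpow (abs_nonneg c) (apply_nonneg N w)]
    ring

theorem add_rpow_le_two {a b q : ℝ} (ha : 0 ≤ a) (hb : 0 ≤ b) (hq : 1 ≤ q) :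
    (a + b) ^ q ≤ 2 ^ (q - 1) * (a ^ q + b ^ q) := by
  have h := NNReal.rpow_add_le_mul_rpow_add_rpow ⟨a, ha⟩ ⟨b, hb⟩ hq
  have h2 := NNReal.coe_le_coe.2 h
  push_cast at h2
  exact h2

instance nonemptyTr {Y : Type u} : Nonempty (Tr Y) := ⟨.leaf⟩

variable (N) in
/-- the value function -/
noncomputable def val (q C : ℝ) (x : X) : ℝ :=
  ⨆ T : Tr X, (ex (fun z => N z ^ q) T x - C * en (fun z => N z ^ q) T)

section value

variable {q C : ℝ} (hq : 1 ≤ q) (hq2 : q ≤ 2)
  (h : ∀ T : Tr X, ex (fun z => N z ^ q) T 0 ≤ C * en (fun y => N y ^ q) T)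
include hq hq2 h

theorem val_term (x : X) (T : Tr X) :
    ex (fun z => N z ^ q) T x - 2 * C * en (fun z => N z ^ q) T ≤ 2 * N x ^ q := by
  have h2 : (2 : ℝ) ^ (q - 1) ≤ 2 := by
    have := Real.rpow_le_rpow_of_exponent_le (show (1 : ℝ) ≤ 2 by norm_num)
      (show q - 1 ≤ 1 by linarith)
    rwa [Real.rpow_one] at this
  have h1 := ex_mono (F := fun z => N z ^ q)
    (G := fun z => 2 * N x ^ q + 2 * N (z - x) ^ q + 0 * 0) (fun z => by
      have a1 := map_add_le_add N x (z - x)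
      rw [add_sub_cancel] at a1
      have a2 := (Real.rpow_le_rpow (apply_nonneg N _) a1 (by linarith)).trans
        (add_rpow_le_two (apply_nonneg N x) (apply_nonneg N (z - x)) hq)
      have a3 := mul_le_mul_of_nonneg_right h2 (add_nonneg
        (Real.rpow_nonneg (apply_nonneg N x) q) (Real.rpow_nonneg (apply_nonneg N (z - x)) q))
      linarith) T x
  rw [ex_lin (fun z => N (z - x) ^ q) (fun _ => 0), ex_shift (fun z => N z ^ q), sub_self] at h1
  linarith [h T]

theorem le_val (x : X) (T : Tr X) :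
    ex (fun z => N z ^ q) T x - 2 * C * en (fun z => N z ^ q) T ≤ val N q (2 * C) x :=
  le_ciSup (f := fun T : Tr X => ex (fun z => N z ^ q) T x - 2 * C * en (fun z => N z ^ q) T)
    ⟨2 * N x ^ q, by rintro _ ⟨T, rfl⟩; exact val_term hq hq2 h x T⟩ T

theorem val_le (x : X) : val N q (2 * C) x ≤ 2 * N x ^ q := ciSup_le (val_term hq hq2 h x)

theorem pow_le_val (x : X) : N x ^ q ≤ val N q (2 * C) x := by
  simpa [ex, en] using le_val hq hq2 h x .leaf

theorem val_nonneg (x : X) : 0 ≤ val N q (2 * C) x :=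
  (Real.rpow_nonneg (apply_nonneg N x) q).trans (pow_le_val hq hq2 h x)

theorem val_smooth (x y : X) : val N q (2 * C) (x + y) + val N q (2 * C) (x - y) ≤
    2 * val N q (2 * C) x + 4 * C * N y ^ q := by
  rw [← le_sub_iff_add_le]
  refine ciSup_le fun l => ?_
  rw [le_sub_comm]
  refine ciSup_le fun r => ?_
  have := le_val hq hq2 h x (.node y l r)
  simp only [ex, en] at this
  linarith

theorem val_convex {a b : ℝ} (ha : 0 ≤ a) (hb : 0 ≤ b) (hab : a + b = 1) (x y : X) :
    val N q (2 * C) (a • x + b • y) ≤ a * val N q (2 * C) x + b * val N q (2 * C) y := by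
  refine ciSup_le fun T => ?_
  have h1 := mul_le_mul_of_nonneg_left (le_val hq hq2 h x T) ha
  have h2 := mul_le_mul_of_nonneg_left (le_val hq hq2 h y T) hb
  have h3 := ex_convex (N := N) hq ha hb hab T x y
  have h4 : 2 * C * en (fun z => N z ^ q) T = (a + b) * (2 * C * en (fun z => N z ^ q) T) := by
    rw [hab, one_mul]
  linarith

theorem val_smul (c : ℝ) (x : X) : val N q (2 * C) (c • x) ≤ |c| ^ q * val N q (2 * C) x := by
  by_cases hc : c = 0
  · subst hc
    have := val_le hq hq2 h (0 : X)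
    rw [map_zero, Real.zero_rpow (by linarith)] at this
    rw [zero_smul, abs_zero, Real.zero_rpow (by linarith)]
    linarith
  refine ciSup_le fun T => ?_
  have h1 := le_val hq hq2 h x (mp (fun y => c⁻¹ • y) T)
  have h2 := ex_smul (N := N) (q := q) (c := c⁻¹) T (c • x)
  rw [inv_smul_smul₀ hc] at h2
  rw [h2, en_smul] at h1
  have h3 := mul_le_mul_of_nonneg_left h1 (show 0 ≤ |c| ^ q by positivity)
  have e : |c| ^ q * |c⁻¹| ^ q = 1 := by
    rw [← Real.mul_rpow (abs_nonneg _) (abs_nonneg _), ← abs_mul, mul_inv_cancel₀ hc, abs_one,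
      Real.one_rpow]
  refine le_trans (le_of_eq ?_) h3
  linear_combination (2 * C * en (fun z => N z ^ q) T - ex (fun z => N z ^ q) T (c • x)) * e

theorem val_add {a b : ℝ} (ha : 0 < a) (hb : 0 < b) {x y : X} (hx : val N q (2 * C) x ≤ a ^ q)
    (hy : val N q (2 * C) y ≤ b ^ q) : val N q (2 * C) (x + y) ≤ (a + b) ^ q := by
  have k : ∀ (a : ℝ) (x : X), 0 < a → val N q (2 * C) x ≤ a ^ q →
      val N q (2 * C) (a⁻¹ • x) ≤ 1 := by
    intro a x ha hx
    refine (val_smul hq hq2 h _ x).trans ((mul_le_mul_of_nonneg_left hx (by positivity)).trans ?_)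
    rw [← Real.mul_rpow (abs_nonneg _) ha.le, abs_of_pos (inv_pos.2 ha), inv_mul_cancel₀ ha.ne',
      Real.one_rpow]
  have hab : a / (a + b) + b / (a + b) = 1 := by field_simp
  have h1 := val_convex hq hq2 h (show 0 ≤ a / (a + b) by positivity)
    (show 0 ≤ b / (a + b) by positivity) hab (a⁻¹ • x) (b⁻¹ • y)
  have h2 := mul_le_mul_of_nonneg_left (k a x ha hx) (show 0 ≤ a / (a + b) by positivity)
  have h3 := mul_le_mul_of_nonneg_left (k b y hb hy) (show 0 ≤ b / (a + b) by positivity)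
  have h4 := val_smul hq hq2 h (a + b) ((a / (a + b)) • a⁻¹ • x + (b / (a + b)) • b⁻¹ • y)
  rw [smul_add, smul_smul, smul_smul, smul_smul, smul_smul,
    show (a + b) * (a / (a + b)) * a⁻¹ = 1 by field_simp,
    show (a + b) * (b / (a + b)) * b⁻¹ = 1 by field_simp, one_smul, one_smul,
    abs_of_pos (add_pos ha hb)] at h4
  refine h4.trans ?_
  have := mul_le_mul_of_nonneg_left (show val N q (2 * C)
    ((a / (a + b)) • a⁻¹ • x + (b / (a + b)) • b⁻¹ • y) ≤ 1 by linarith)
    (show 0 ≤ (a + b) ^ q by positivity)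
  linarith

theorem exists_renorm : ∃ M : Seminorm ℝ X, ∀ x, M x ^ q = val N q (2 * C) x := by
  have hq0 : 0 < q := by linarith
  have hv := val_nonneg hq hq2 h
  refine ⟨Seminorm.ofSMulLE (fun x => val N q (2 * C) x ^ q⁻¹) ?_ ?_ ?_,
    fun x => Real.rpow_inv_rpow (hv x) hq0.ne'⟩
  · have := val_le hq hq2 h (0 : X)
    rw [map_zero, Real.zero_rpow hq0.ne', mul_zero] at this
    rw [le_antisymm this (hv 0), Real.zero_rpow (by positivity)]
  · intro x y
    refine le_of_forall_pos_le_add fun ε hε => ?_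
    have k : ∀ x, val N q (2 * C) x ≤ (val N q (2 * C) x ^ q⁻¹ + ε / 2) ^ q := fun x => by
      refine le_trans (Real.rpow_inv_rpow (hv x) hq0.ne').ge
        (Real.rpow_le_rpow (Real.rpow_nonneg (hv x) _) (by linarith) hq0.le)
    have hx := Real.rpow_nonneg (hv x) q⁻¹
    have hy := Real.rpow_nonneg (hv y) q⁻¹
    have h1 := val_add hq hq2 h (by linarith) (by linarith) (k x) (k y)
    rw [Real.rpow_inv_le_iff_of_pos (hv _) (by linarith) hq0]
    refine h1.trans (le_of_eq ?_)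
    congr 1
    ring
  · intro c x
    rw [Real.rpow_inv_le_iff_of_pos (hv _)
      (mul_nonneg (norm_nonneg _) (Real.rpow_nonneg (hv x) _)) hq0,
      Real.mul_rpow (norm_nonneg _) (Real.rpow_nonneg (hv x) _),
      Real.rpow_inv_rpow (hv x) hq0.ne']
    exact val_smul hq hq2 h c x

end value

theorem sm_of_smooth {τ : ℝ} (hτ : 0 < τ) {m : ℕ} (hm : 400 / τ + 400 ≤ m)
    (h : ∀ s : ℝ, 0 < s → s ≤ τ → ∀ x y : X, N x = 1 → N y = 1 →
      (N (x + s • y) + N (x - s • y)) / 2 - 1 ≤ 1 / 20 * s) : Sm N m := by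
  intro x d
  have hτ' : 0 < 400 / τ := by positivity
  have hm0 : (0 : ℝ) < m := by linarith
  have hu := apply_nonneg N x
  have hv := apply_nonneg N d
  have ha := apply_nonneg N (x + d)
  have hb := apply_nonneg N (x - d)
  have a1 := map_add_le_add N x d
  have a2 := map_sub_le_add N x d
  have a3 : |N (x + d) - N (x - d)| ≤ 2 * N d := by
    have := abs_sub_map_le_sub N (x + d) (x - d)
    rw [show x + d - (x - d) = (2 : ℝ) • d by rw [two_smul]; abel, map_smul_eq_mul] at this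
    simpa using this
  have a4 : (N (x + d) - N (x - d)) ^ 2 ≤ (2 * N d) ^ 2 := by
    rw [← sq_abs]
    exact pow_le_pow_left₀ (abs_nonneg _) a3 2
  have a5 : N (x + d) ^ 2 + N (x - d) ^ 2 ≤
      2 * N x ^ 2 + 1 / 5 * (N x * N d) + (4 / τ + 4) * N d ^ 2 := by
    have hτ4 : 0 ≤ 4 / τ * N d ^ 2 := by positivity
    by_cases c : N d ≤ τ * N x
    · have a6 : N (x + d) + N (x - d) ≤ 2 * N x + 1 / 10 * N d := by
        rcases hv.eq_or_lt with h0 | h0
        · linarith
        have hx : 0 < N x := by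
          by_contra h1
          rw [le_antisymm (not_lt.1 h1) hu] at c
          linarith
        have b := h (N d / N x) (by positivity) (by rwa [div_le_iff₀ hx]) ((N x)⁻¹ • x)
          ((N d)⁻¹ • d)
          (by rw [map_smul_eq_mul, Real.norm_of_nonneg (by positivity), inv_mul_cancel₀ hx.ne'])
          (by rw [map_smul_eq_mul, Real.norm_of_nonneg (by positivity), inv_mul_cancel₀ h0.ne'])
        rw [smul_smul, show N d / N x * (N d)⁻¹ = (N x)⁻¹ by field_simp, ← smul_add, ← smul_sub,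
          map_smul_eq_mul, map_smul_eq_mul, Real.norm_of_nonneg (by positivity)] at b
        have b2 := mul_le_mul_of_nonneg_left b hx.le
        have e1 : N x * (((N x)⁻¹ * N (x + d) + (N x)⁻¹ * N (x - d)) / 2 - 1) =
            (N (x + d) + N (x - d)) / 2 - N x := by field_simp
        have e2 : N x * (1 / 20 * (N d / N x)) = 1 / 20 * N d := by field_simp
        linarith
      have a7 := pow_le_pow_left₀ (add_nonneg ha hb) a6 2
      nlinarith
    · have a6 : N x * N d ≤ 1 / τ * N d ^ 2 := by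
        have : N x ≤ 1 / τ * N d := by
          rw [one_div, ← div_eq_inv_mul, le_div_iff₀ hτ]
          linarith [not_le.1 c]
        nlinarith
      have a7 := pow_le_pow_left₀ (add_nonneg ha hb) (add_le_add a1 a2) 2
      have a8 : 4 / τ * N d ^ 2 = 4 * (1 / τ * N d ^ 2) := by ring
      nlinarith [mul_nonneg hu hv]
  have a6 : 1 / 5 * (N x * N d) ≤ 1 / (m : ℝ) * N x ^ 2 + m / 100 * N d ^ 2 := by
    have : 0 ≤ 1 / (m : ℝ) * (N x - m / 10 * N d) ^ 2 := by positivity
    have e : 1 / (m : ℝ) * (N x - m / 10 * N d) ^ 2 =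
        1 / (m : ℝ) * N x ^ 2 + m / 100 * N d ^ 2 - 1 / 5 * (N x * N d) := by
      field_simp; ring
    linarith
  have a7 : 4 / τ + 4 ≤ (m : ℝ) / 100 := by
    have : 400 / τ = 100 * (4 / τ) := by ring
    linarith
  have a8 := mul_le_mul_of_nonneg_right a7 (sq_nonneg (N d))
  have a9 : 0 ≤ (m : ℝ) * N d ^ 2 := by positivity
  linarith

/-- **The power type renorming theorem**, with constants depending only on `τ`. -/
theorem pisier {τ : ℝ} (hτ : 0 < τ) : ∃ q C : ℝ, 1 < q ∧ q ≤ 2 ∧ 0 < C ∧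
    ∀ (X : Type u) [AddCommGroup X] [Module ℝ X] (N : Seminorm ℝ X),
      (∀ s : ℝ, 0 < s → s ≤ τ → ∀ x y : X, N x = 1 → N y = 1 →
        (N (x + s • y) + N (x - s • y)) / 2 - 1 ≤ 1 / 20 * s) →
      ∃ M : Seminorm ℝ X, (∀ x, N x ≤ M x ∧ M x ≤ 2 * N x) ∧
        ∀ x y, M (x + y) ^ q + M (x - y) ^ q ≤ 2 * M x ^ q + C * M y ^ q := by
  obtain ⟨m, hm⟩ := exists_nat_ge (400 / τ + 400)
  have hτ' : 0 < 400 / τ := by positivity
  have hm2 : (2 : ℝ) ≤ m := by linarith
  have hm0 : (0 : ℝ) < m := by linarith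
  set q₀ : ℝ := m / (m - 1) with hq₀
  have h1 : 1 < q₀ := by rw [hq₀, one_lt_div (by linarith)]; linarith
  have h2 : q₀ ≤ 2 := by rw [hq₀, div_le_iff₀ (by linarith)]; linarith
  have h3 : (m : ℝ) ^ (2 - 2 / q₀) ≤ 4 := by
    have e : 2 - 2 / q₀ = 2 / m := by rw [hq₀]; field_simp; ring
    have b : (m : ℝ) ≤ 2 ^ (m : ℝ) := by
      rw [Real.rpow_natCast]
      exact_mod_cast Nat.lt_two_pow_self.le
    rw [e]
    refine (Real.rpow_le_rpow hm0.le b (by positivity)).trans (le_of_eq ?_)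
    rw [← Real.rpow_mul (by norm_num), mul_div_cancel₀ _ hm0.ne']
    norm_num
  set q : ℝ := (1 + q₀) / 2 with hq
  have h4 : (4 : ℝ) ^ (q / q₀ - 1) < 1 :=
    Real.rpow_lt_one_of_one_lt_of_neg (by norm_num) (by
      rw [sub_neg, div_lt_one (by linarith)]; linarith)
  set c : ℝ := 1 / (1 - 4 ^ (q / q₀ - 1)) with hc
  have hc0 : 0 ≤ c := by
    have : (0 : ℝ) < 1 - 4 ^ (q / q₀ - 1) := by linarith
    positivity
  have hc1 : 1 + c * 4 ^ (q / q₀ - 1) = c := by
    have : (1 : ℝ) - 4 ^ (q / q₀ - 1) ≠ 0 := by linarith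
    rw [hc]
    generalize (4 : ℝ) ^ (q / q₀ - 1) = w at this
    field_simp; ring
  refine ⟨q, 4 * (4 + m / 4 * (c + 2)), by linarith, by linarith, by positivity, ?_⟩
  intro X _ _ N hN
  have hq1 : 1 ≤ q := by linarith
  have hq2 : q ≤ 2 := by linarith
  have hT := mart_type (N := N) (K := m / 4) (by positivity) hq1 (by linarith) h2 hc0 hc1
    fun s hs T hT => pathwise (by exact_mod_cast hm2) (sm_of_smooth hτ hm hN) h1.le h2 h3 hs T hT
  obtain ⟨M, hM⟩ := exists_renorm hq1 hq2 hT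
  have k1 : ∀ x, N x ≤ M x := fun x => by
    rw [← Real.rpow_le_rpow_iff (apply_nonneg N x) (apply_nonneg M x) (show 0 < q by linarith), hM]
    exact pow_le_val hq1 hq2 hT x
  refine ⟨M, fun x => ⟨k1 x, ?_⟩, fun x y => ?_⟩
  · rw [← Real.rpow_le_rpow_iff (apply_nonneg M x) (mul_nonneg (by norm_num) (apply_nonneg N x))
      (show 0 < q by linarith), hM, Real.mul_rpow (by norm_num) (apply_nonneg N x)]
    refine (val_le hq1 hq2 hT x).trans (mul_le_mul_of_nonneg_right ?_
      (Real.rpow_nonneg (apply_nonneg N x) q))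
    have := Real.rpow_le_rpow_of_exponent_le (show (1 : ℝ) ≤ 2 by norm_num) hq1
    rwa [Real.rpow_one] at this
  · rw [hM, hM, hM x]
    refine (val_smooth hq1 hq2 hT x y).trans (add_le_add le_rfl ?_)
    exact mul_le_mul_of_nonneg_left
      (Real.rpow_le_rpow (apply_nonneg N y) (k1 y) (by linarith)) (by positivity)

end Vale.Agent.N125
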