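import Mathlib
import Vale.Agent.N125.Pisier

/-!
# P125: smoothness of power type `q` gives Markov type `q`
-/

namespace Vale.Agent.N125

open Finset

variable {S : Type*} [Fintype S] [DecidableEq S] {X : Type*} [AddCommGroup X]

/-- sum over the paths from `i` to `j` of the weight times `F` of the sum of `g` on the path -/
noncomputable def W (P : Matrix S S ℝ) (g : S → S → X) : ℕ → S → S → (X → ℝ) → ℝ
  | 0, i, j, F => if i = j then F 0 else 0
  | t + 1, i, j, F => ∑ k, P i k * W P g t k j fun x => F (g i k + x)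

/-- expected sum of `G` over the steps -/
noncomputable def acc (P : Matrix S S ℝ) (G : S → S → ℝ) : ℕ → S → ℝ
  | 0, _ => 0
  | t + 1, i => ∑ k, P i k * (G i k + acc P G t k)

variable {P : Matrix S S ℝ}

theorem W_last (g : S → S → X) (t : ℕ) : ∀ (i j : S) (F : X → ℝ),
    W P g (t + 1) i j F = ∑ k, (W P g t i k fun x => F (x + g k j)) * P k j := by
  induction t with
  | zero =>
    intro i j F
    simp [W, mul_comm]
  | succ t ih =>
    intro i j F
    have e : ∀ k, (W P g (t + 1) i k fun x => F (x + g k j)) =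
        ∑ l, P i l * W P g t l k fun x => F (g i l + x + g k j) := fun k => rfl
    rw [W]
    simp only [e]
    simp only [ih, Finset.mul_sum, Finset.sum_mul]
    rw [Finset.sum_comm]
    refine Finset.sum_congr rfl fun l _ => Finset.sum_congr rfl fun k _ => ?_
    simp only [add_assoc, mul_assoc]

theorem W_rev {π : S → ℝ} (hrev : ∀ i j, π i * P i j = π j * P j i) (g : S → S → X) (t : ℕ) :
    ∀ (i j : S) (F : X → ℝ), π i * W P g t i j F = π j * W P (fun a b => g b a) t j i F := by
  induction t with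
  | zero =>
    intro i j F
    simp only [W]
    by_cases h : i = j
    · subst h; rfl
    · rw [if_neg h, if_neg (Ne.symm h), mul_zero, mul_zero]
  | succ t ih =>
    intro i j F
    rw [W_last (fun a b => g b a), W, Finset.mul_sum, Finset.mul_sum]
    refine Finset.sum_congr rfl fun k _ => ?_
    rw [← mul_assoc, hrev, mul_right_comm, ih, mul_assoc]
    simp only [add_comm]

theorem W_tele (φ : S → X) (t : ℕ) : ∀ (i j : S) (F : X → ℝ),
    W P (fun a b => φ b - φ a) t i j F = (P ^ t) i j * F (φ j - φ i) := by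
  induction t with
  | zero =>
    intro i j F
    simp only [W, pow_zero, Matrix.one_apply]
    split_ifs with h
    · subst h; simp
    · simp
  | succ t ih =>
    intro i j F
    simp only [W, ih]
    rw [pow_succ', Matrix.mul_apply, Finset.sum_mul]
    refine Finset.sum_congr rfl fun k _ => ?_
    rw [show φ k - φ i + (φ j - φ k) = φ j - φ i by abel, mul_assoc]

theorem W_sub (hP : ∀ i j, 0 ≤ P i j) (g h : S → S → X) (t : ℕ) :
    ∀ (i j : S) (F F₁ F₂ : X → ℝ) (a : ℝ), (∀ x y, F (x - y) ≤ a * (F₁ x + F₂ y)) →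
      W P (fun a b => g a b - h a b) t i j F ≤ a * (W P g t i j F₁ + W P h t i j F₂) := by
  induction t with
  | zero =>
    intro i j F F₁ F₂ a H
    simp only [W]
    split_ifs
    · simpa using H 0 0
    · simp
  | succ t ih =>
    intro i j F F₁ F₂ a H
    simp only [W]
    rw [← Finset.sum_add_distrib, Finset.mul_sum]
    refine Finset.sum_le_sum fun k _ => ?_
    have := mul_le_mul_of_nonneg_left (ih k j (fun x => F (g i k - h i k + x))
      (fun x => F₁ (g i k + x)) (fun x => F₂ (h i k + x)) a fun x y => by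
        rw [show g i k - h i k + (x - y) = g i k + x - (h i k + y) by abel]
        exact H _ _) (hP i k)
    linarith

omit [DecidableEq S] in
theorem sum_acc {π : S → ℝ} (hst : ∀ j, ∑ i, π i * P i j = π j) (G : S → S → ℝ) (t : ℕ) :
    ∑ i, π i * acc P G t i = t * ∑ i, ∑ k, π i * P i k * G i k := by
  induction t with
  | zero => simp [acc]
  | succ t ih =>
    simp only [acc]
    have h1 : ∀ i, π i * ∑ k, P i k * (G i k + acc P G t k) =
        (∑ k, π i * P i k * G i k) + ∑ k, π i * P i k * acc P G t k := by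
      intro i
      rw [Finset.mul_sum, ← Finset.sum_add_distrib]
      exact Finset.sum_congr rfl fun k _ => by ring
    simp only [h1]
    rw [Finset.sum_add_distrib, Finset.sum_comm (f := fun i k => π i * P i k * acc P G t k)]
    simp only [← Finset.sum_mul, hst]
    rw [ih]
    push_cast
    ring

variable [Module ℝ X] {M : Seminorm ℝ X} {q C : ℝ}

omit [DecidableEq S] in
theorem jensen_semi (hq : 1 ≤ q) {w : S → ℝ} (hw : ∀ k, 0 ≤ w k) (hw1 : ∑ k, w k = 1)
    (z : S → X) : M (∑ k, w k • z k) ^ q ≤ ∑ k, w k * M (z k) ^ q := by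
  have h1 : M (∑ k, w k • z k) ≤ ∑ k, w k * M (z k) := by
    refine (Finset.le_sum_of_subadditive M (map_zero M).le (map_add_le_add M) _ _).trans
      (le_of_eq (Finset.sum_congr rfl fun k _ => ?_))
    rw [map_smul_eq_mul, Real.norm_of_nonneg (hw k)]
  exact (Real.rpow_le_rpow (apply_nonneg M _) h1 (by linarith)).trans
    (Real.rpow_arith_mean_le_arith_mean_rpow univ w (fun k => M (z k)) (fun k _ => hw k) hw1
      (fun k _ => apply_nonneg M _) hq)

omit [DecidableEq S] in
theorem mean_zero_step (hq : 1 ≤ q)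
    (hM : ∀ x y, M (x + y) ^ q + M (x - y) ^ q ≤ 2 * M x ^ q + C * M y ^ q)
    {w : S → ℝ} (hw : ∀ k, 0 ≤ w k) (hw1 : ∑ k, w k = 1) {d : S → X} (hd : ∑ k, w k • d k = 0)
    (x : X) : ∑ k, w k * M (x + d k) ^ q ≤ M x ^ q + C * ∑ k, w k * M (d k) ^ q := by
  have h1 := jensen_semi (M := M) hq hw hw1 fun k => x - d k
  simp only [smul_sub, Finset.sum_sub_distrib, hd, ← Finset.sum_smul, hw1, one_smul,
    sub_zero] at h1
  have h2 := Finset.sum_le_sum fun k (_ : k ∈ univ) => mul_le_mul_of_nonneg_left (hM x (d k)) (hw k)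
  simp only [mul_add, Finset.sum_add_distrib] at h2
  rw [← Finset.sum_mul, hw1] at h2
  have h3 : ∑ k, w k * (C * M (d k) ^ q) = C * ∑ k, w k * M (d k) ^ q := by
    rw [Finset.mul_sum]
    exact Finset.sum_congr rfl fun k _ => by ring
  linarith

theorem W_mart (hq : 1 ≤ q)
    (hM : ∀ x y, M (x + y) ^ q + M (x - y) ^ q ≤ 2 * M x ^ q + C * M y ^ q)
    (hP : ∀ i j, 0 ≤ P i j) (hP1 : ∀ i, ∑ j, P i j = 1) {g : S → S → X}
    (hg : ∀ i, ∑ k, P i k • g i k = 0) (t : ℕ) : ∀ (i : S) (x : X),
    ∑ j, (W P g t i j fun z => M (x + z) ^ q) ≤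
      M x ^ q + C * acc P (fun a b => M (g a b) ^ q) t i := by
  induction t with
  | zero => intro i x; simp [W, acc]
  | succ t ih =>
    intro i x
    simp only [W, acc]
    rw [Finset.sum_comm]
    simp only [← Finset.mul_sum, ← add_assoc]
    refine (Finset.sum_le_sum fun k _ =>
      mul_le_mul_of_nonneg_left (ih k (x + g i k)) (hP i k)).trans ?_
    have h1 := mean_zero_step hq hM (hP i) (hP1 i) (hg i) x
    have h2 : ∑ k, P i k * (C * acc P (fun a b => M (g a b) ^ q) t k) =
        C * ∑ k, P i k * acc P (fun a b => M (g a b) ^ q) t k := by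
      rw [Finset.mul_sum]
      exact Finset.sum_congr rfl fun k _ => by ring
    simp only [mul_add, Finset.sum_add_distrib]
    linarith

theorem semi_add_le (hq : 1 ≤ q) (hq2 : q ≤ 2) (x y : X) :
    M (x - y) ^ q ≤ 2 * (M x ^ q + M y ^ q) := by
  have h2 : (2 : ℝ) ^ (q - 1) ≤ 2 := by
    have := Real.rpow_le_rpow_of_exponent_le (show (1 : ℝ) ≤ 2 by norm_num)
      (show q - 1 ≤ 1 by linarith)
    rwa [Real.rpow_one] at this
  refine ((Real.rpow_le_rpow (apply_nonneg M _) (map_sub_le_add M x y) (by linarith)).trans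
    (add_rpow_le_two (apply_nonneg M x) (apply_nonneg M y) hq)).trans ?_
  exact mul_le_mul_of_nonneg_right h2 (add_nonneg (Real.rpow_nonneg (apply_nonneg M x) q)
    (Real.rpow_nonneg (apply_nonneg M y) q))

theorem pow_facts {π : S → ℝ} (hP : ∀ i j, 0 ≤ P i j) (hP1 : ∀ i, ∑ j, P i j = 1)
    (hst : ∀ j, ∑ i, π i * P i j = π j) (t : ℕ) : (∀ i j, 0 ≤ (P ^ t) i j) ∧
      (∀ i, ∑ j, (P ^ t) i j = 1) ∧ ∀ j, ∑ i, π i * (P ^ t) i j = π j := by
  induction t with
  | zero =>
    refine ⟨fun i j => ?_, fun i => by simp [Matrix.one_apply], fun j => by simp [Matrix.one_apply]⟩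
    rw [pow_zero, Matrix.one_apply]
    split_ifs <;> norm_num
  | succ t ih =>
    simp only [pow_succ, Matrix.mul_apply]
    refine ⟨fun i j => Finset.sum_nonneg fun k _ => mul_nonneg (ih.1 i k) (hP k j), fun i => ?_,
      fun j => ?_⟩
    · rw [Finset.sum_comm]
      simp only [← Finset.mul_sum, hP1, mul_one, ih.2.1]
    · simp only [Finset.mul_sum, ← mul_assoc]
      rw [Finset.sum_comm]
      simp only [← Finset.sum_mul, ih.2.2, hst]

/-- the theorem of Naor, Peres, Schramm and Sheffield -/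
theorem npss (hq : 1 ≤ q) (hq2 : q ≤ 2) (hC : 0 ≤ C)
    (hM : ∀ x y, M (x + y) ^ q + M (x - y) ^ q ≤ 2 * M x ^ q + C * M y ^ q) {π : S → ℝ}
    (hπ : ∀ i, 0 ≤ π i) (hP : ∀ i j, 0 ≤ P i j) (hP1 : ∀ i, ∑ j, P i j = 1)
    (hrev : ∀ i j, π i * P i j = π j * P j i) (f : S → X) {t : ℕ} (ht : 1 ≤ t) :
    ∑ i, ∑ j, π i * (P ^ t) i j * M (f j - f i) ^ q ≤
      (16 * C + 4) * t * ∑ i, ∑ j, π i * P i j * M (f j - f i) ^ q := by
  have hst : ∀ j, ∑ i, π i * P i j = π j := fun j => by
    simp only [hrev _ j, ← Finset.mul_sum, hP1, mul_one]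
  obtain ⟨p0, p1, p2⟩ := pow_facts hP hP1 hst t
  set E := ∑ i, ∑ j, π i * P i j * M (f j - f i) ^ q with hE
  have hB : ∀ x, 0 ≤ M x ^ q := fun x => Real.rpow_nonneg (apply_nonneg M x) q
  have hE0 : 0 ≤ E := Finset.sum_nonneg fun i _ => Finset.sum_nonneg fun j _ =>
    mul_nonneg (mul_nonneg (hπ i) (hP i j)) (hB _)
  set a : S → X := fun i => ∑ k, P i k • f k with ha
  have h1 : ∑ i, π i * M (a i - f i) ^ q ≤ E := by
    refine Finset.sum_le_sum fun i _ => ?_
    have := jensen_semi (M := M) hq (hP i) (hP1 i) fun k => f k - f i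
    simp only [smul_sub, Finset.sum_sub_distrib, ← Finset.sum_smul, hP1, one_smul] at this
    simp only [mul_assoc, ← Finset.mul_sum]
    exact mul_le_mul_of_nonneg_left this (hπ i)
  have h2 : ∑ i, ∑ k, π i * P i k * M (f k - a i) ^ q ≤ 4 * E := by
    have b : ∀ i k, π i * P i k * M (f k - a i) ^ q ≤
        2 * (π i * P i k * M (f k - f i) ^ q) + 2 * (π i * M (a i - f i) ^ q * P i k) := by
      intro i k
      have := mul_le_mul_of_nonneg_left (semi_add_le (M := M) hq hq2 (f k - f i) (a i - f i))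
        (mul_nonneg (hπ i) (hP i k))
      rw [sub_sub_sub_cancel_right] at this
      linarith
    refine (Finset.sum_le_sum fun i _ => Finset.sum_le_sum fun k _ => b i k).trans ?_
    simp only [Finset.sum_add_distrib, ← Finset.mul_sum, hP1, mul_one]
    linarith
  have h3 : ∑ i, ∑ j, π i * W P (fun i k => f k - a i) t i j (fun z => M z ^ q) ≤
      4 * C * t * E := by
    have b := fun i => W_mart hq hM hP hP1 (g := fun i k => f k - a i) (fun i => by
      simp only [smul_sub, Finset.sum_sub_distrib, ← Finset.sum_smul, hP1, one_smul]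
      exact sub_self _) t i 0
    simp only [zero_add, map_zero, Real.zero_rpow (show q ≠ 0 by linarith)] at b
    simp only [← Finset.mul_sum]
    refine (Finset.sum_le_sum fun i _ => mul_le_mul_of_nonneg_left (b i) (hπ i)).trans ?_
    simp only [mul_left_comm _ C, ← Finset.mul_sum]
    rw [sum_acc hst]
    have := mul_le_mul_of_nonneg_left h2 (show 0 ≤ C * t by positivity)
    linarith
  have h4 : ∑ i, ∑ j, π i * W P (fun i k => f i - a k) t i j (fun z => M z ^ q) ≤
      4 * C * t * E := by
    simp only [W_rev hrev (fun i k => f i - a k)]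
    rw [Finset.sum_comm]
    exact h3
  have h5 : ∀ i j, 2 * (π i * (P ^ t) i j * M (f j - f i) ^ q) ≤
      4 * (π i * W P (fun i k => f k - a i) t i j (fun z => M z ^ q)) +
      4 * (π i * W P (fun i k => f i - a k) t i j (fun z => M z ^ q)) +
      4 * (π i * (P ^ t) i j * M (a j - f j) ^ q) + 4 * (π i * M (a i - f i) ^ q * (P ^ t) i j) := by
    intro i j
    have b1 := W_sub hP (fun i k => f k - a i) (fun i k => f i - a k) t i j (fun z => M z ^ q)
      (fun z => M z ^ q) (fun z => M z ^ q) 2 (semi_add_le hq hq2)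
    have e : (fun i k => f k - a i - (f i - a k)) = fun i k => f k + a k - (f i + a i) := by
      funext i k; abel
    rw [e, W_tele (fun i => f i + a i)] at b1
    have b2 := semi_add_le (M := M) hq hq2 (f j + a j - (f i + a i)) (a j - f j - (a i - f i))
    have b3 := semi_add_le (M := M) hq hq2 (a j - f j) (a i - f i)
    rw [show f j + a j - (f i + a i) - (a j - f j - (a i - f i)) = (2 : ℝ) • (f j - f i) by
      rw [two_smul]; abel, map_smul_eq_mul, Real.norm_of_nonneg (by norm_num),
      Real.mul_rpow (by norm_num) (apply_nonneg M _)] at b2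
    have b4 : (2 : ℝ) ≤ 2 ^ q := by
      have := Real.rpow_le_rpow_of_exponent_le (show (1 : ℝ) ≤ 2 by norm_num) hq
      rwa [Real.rpow_one] at this
    have b5 := mul_le_mul_of_nonneg_right b4 (hB (f j - f i))
    have b6 := mul_le_mul_of_nonneg_left (show 2 * M (f j - f i) ^ q ≤
      2 * M (f j + a j - (f i + a i)) ^ q + 4 * M (a j - f j) ^ q + 4 * M (a i - f i) ^ q by
        linarith) (mul_nonneg (hπ i) (p0 i j))
    have b7 := mul_le_mul_of_nonneg_left b1 (hπ i)
    linarith
  have h6 := Finset.sum_le_sum fun i (_ : i ∈ univ) =>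
    Finset.sum_le_sum fun j (_ : j ∈ univ) => h5 i j
  simp only [Finset.sum_add_distrib, ← Finset.mul_sum, p1, mul_one] at h6
  rw [Finset.sum_comm (f := fun i j => π i * (P ^ t) i j * M (a j - f j) ^ q)] at h6
  simp only [← Finset.sum_mul, p2] at h6
  simp only [← Finset.mul_sum] at h3 h4
  have ht1 : (1 : ℝ) ≤ t := by exact_mod_cast ht
  have := mul_le_mul_of_nonneg_right ht1 hE0
  linarith

end Vale.Agent.N125
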