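import Mathlib
import Vale.Agent.N125.Defs
import Vale.Agent.N125.Npss

/-!
# P125: duals, quotients, and the moduli
-/

namespace Vale.Agent.N125

open Finset Filter Topology

section polar

variable {W Z : Type*} [AddCommGroup W] [Module ℝ W] [AddCommGroup Z] [Module ℝ Z]

theorem exists_polar (B : W →ₗ[ℝ] Z →ₗ[ℝ] ℝ) (N : Seminorm ℝ Z)
    (hb : ∀ w, ∃ c, ∀ z, N z ≤ 1 → B w z ≤ c) :
    ∃ P : Seminorm ℝ W, (∀ w z, B w z ≤ P w * N z) ∧
      ∀ w c, (∀ z, N z ≤ 1 → B w z ≤ c) → P w ≤ c := by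
  have hne : Nonempty {z // N z ≤ 1} := ⟨⟨0, by simp⟩⟩
  have h1 : ∀ w z, N z ≤ 1 → B w z ≤ ⨆ z : {z // N z ≤ 1}, B w z := by
    intro w z hz
    obtain ⟨c, hc⟩ := hb w
    exact le_ciSup (f := fun z : {z // N z ≤ 1} => B w z)
      ⟨c, by rintro _ ⟨z, rfl⟩; exact hc z z.2⟩ ⟨z, hz⟩
  have h2 : ∀ w c, (∀ z, N z ≤ 1 → B w z ≤ c) → ⨆ z : {z // N z ≤ 1}, B w z ≤ c :=
    fun w c h => ciSup_le fun z => h z z.2
  refine ⟨Seminorm.ofSMulLE (fun w => ⨆ z : {z // N z ≤ 1}, B w z) (by simp) ?_ ?_, ?_, h2⟩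
  · intro w w'
    refine h2 _ _ fun z hz => ?_
    rw [map_add, LinearMap.add_apply]
    exact add_le_add (h1 w z hz) (h1 w' z hz)
  · intro c w
    refine h2 _ _ fun z hz => ?_
    rw [map_smul, LinearMap.smul_apply, smul_eq_mul, Real.norm_eq_abs]
    rcases le_total 0 c with hc | hc
    · rw [abs_of_nonneg hc]
      exact mul_le_mul_of_nonneg_left (h1 w z hz) hc
    · rw [abs_of_nonpos hc]
      have := mul_le_mul_of_nonneg_left (h1 w (-z) (by rwa [map_neg_eq_map])) (neg_nonneg.2 hc)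
      rwa [map_neg, neg_mul_neg] at this
  · intro w z
    change B w z ≤ (⨆ z : {z // N z ≤ 1}, B w z) * N z
    set p := ⨆ z : {z // N z ≤ 1}, B w z with hp
    have hp0 : 0 ≤ p := by simpa using h1 w 0 (by simp)
    refine le_of_forall_pos_le_add fun ε hε => ?_
    have hη : 0 < N z + ε / (p + 1) := add_pos_of_nonneg_of_pos (apply_nonneg N z) (by positivity)
    have h3 := h1 w ((N z + ε / (p + 1))⁻¹ • z) (by
      rw [map_smul_eq_mul, Real.norm_of_nonneg (inv_nonneg.2 hη.le), inv_mul_le_iff₀ hη, mul_one]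
      exact le_add_of_nonneg_right (by positivity))
    rw [map_smul, smul_eq_mul, inv_mul_le_iff₀ hη, ← hp] at h3
    have h4 : ε / (p + 1) * p ≤ ε := by
      rw [div_mul_eq_mul_div, div_le_iff₀ (by positivity)]
      nlinarith
    linarith

theorem polar_smooth {B : W →ₗ[ℝ] Z →ₗ[ℝ] ℝ} {N : Seminorm ℝ Z} {P : Seminorm ℝ W}
    (h1 : ∀ w z, B w z ≤ P w * N z) (h2 : ∀ w c, (∀ z, N z ≤ 1 → B w z ≤ c) → P w ≤ c) {δ : ℝ}
    (h : ∀ x y, N x ≤ 1 → N y ≤ 1 → 1 / 10 ≤ N (x - y) → N ((1 / 2 : ℝ) • (x + y)) ≤ 1 - δ)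
    (s : ℝ) (hs : 0 < s) (hsδ : s ≤ δ) (φ ψ : W) (hφ : P φ = 1) (hψ : P ψ = 1) :
    (P (φ + s • ψ) + P (φ - s • ψ)) / 2 - 1 ≤ 1 / 20 * s := by
  have key : ∀ x y, N x ≤ 1 → N y ≤ 1 → B (φ + s • ψ) x + B (φ - s • ψ) y ≤ 2 + 1 / 10 * s := by
    intro x y hx hy
    have a1 := h1 φ (x + y)
    have a2 := mul_le_mul_of_nonneg_left (h1 ψ (x - y)) hs.le
    rw [hφ, one_mul, map_add] at a1
    rw [hψ, one_mul, map_sub] at a2
    simp only [map_add, map_sub, map_smul, LinearMap.add_apply, LinearMap.sub_apply,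
      LinearMap.smul_apply, smul_eq_mul]
    have a3 := map_add_le_add N x y
    have a4 := map_sub_le_add N x y
    rcases le_total (1 / 10) (N (x - y)) with c | c
    · have a5 := h x y hx hy c
      rw [map_smul_eq_mul, Real.norm_of_nonneg (by norm_num)] at a5
      have a6 := mul_le_mul_of_nonneg_left (show N (x - y) ≤ 2 by linarith) hs.le
      linarith
    · have a6 := mul_le_mul_of_nonneg_left c hs.le
      linarith
  have := h2 (φ + s • ψ) (2 + 1 / 10 * s - P (φ - s • ψ)) fun x hx => by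
    have := h2 (φ - s • ψ) (2 + 1 / 10 * s - B (φ + s • ψ) x) fun y hy => by
      linarith [key x y hx hy]
    linarith
  linarith

theorem sum_le_of_pow {a b q c : ℝ} (ha : 0 ≤ a) (hb : 0 ≤ b) (hq : 1 ≤ q) (hc : 0 ≤ c)
    (h : a ^ q + b ^ q ≤ 2 + c) : a + b ≤ 2 + c := by
  have h1 := one_add_mul_self_le_rpow_one_add (s := a - 1) (by linarith) hq
  have h2 := one_add_mul_self_le_rpow_one_add (s := b - 1) (by linarith) hq
  rw [add_sub_cancel] at h1 h2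
  by_contra hcon
  nlinarith [not_le.1 hcon]

theorem smooth_pt {M : Seminorm ℝ Z} {q C : ℝ} (hq : 1 ≤ q) (hC : 0 ≤ C)
    (hM : ∀ x y, M (x + y) ^ q + M (x - y) ^ q ≤ 2 * M x ^ q + C * M y ^ q) {s : ℝ} (hs : 0 ≤ s)
    {x y : Z} (hx : M x ≤ 1) (hy : M y ≤ 1) :
    M (x + s • y) + M (x - s • y) ≤ 2 + C * s ^ q := by
  refine sum_le_of_pow (apply_nonneg M _) (apply_nonneg M _) hq (by positivity)
    ((hM x (s • y)).trans ?_)
  have h1 : M x ^ q ≤ 1 := Real.rpow_le_one (apply_nonneg M x) hx (by linarith)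
  have h2 : M (s • y) ≤ s := by
    rw [map_smul_eq_mul, Real.norm_of_nonneg hs]
    exact mul_le_of_le_one_right hs hy
  have h3 := mul_le_mul_of_nonneg_left
    (Real.rpow_le_rpow (apply_nonneg M _) h2 (show 0 ≤ q by linarith)) hC
  linarith

theorem polar_convex {B : W →ₗ[ℝ] Z →ₗ[ℝ] ℝ} {M : Seminorm ℝ Z} {P : Seminorm ℝ W}
    (h1 : ∀ w z, B w z ≤ P w * M z) (h2 : ∀ w c, (∀ z, M z ≤ 1 → B w z ≤ c) → P w ≤ c)
    {q C : ℝ} (hq : 1 < q) (hC : 0 < C)
    (hM : ∀ x y, M (x + y) ^ q + M (x - y) ^ q ≤ 2 * M x ^ q + C * M y ^ q)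
    {ε : ℝ} (hε : 0 < ε) (x y : W) (hx : P x ≤ 1) (hy : P y ≤ 1) (hxy : ε ≤ P (x - y)) :
    P ((1 / 2 : ℝ) • (x + y)) ≤ 1 - (2 * C) ^ (-(q - 1)⁻¹) / 4 * ε ^ (q / (q - 1)) := by
  have hq1 : 0 < q - 1 := by linarith
  set s : ℝ := (ε / (2 * C)) ^ (q - 1)⁻¹ with hs
  have hs0 : 0 < s := by positivity
  have e1 : C * s ^ q = s * ε / 2 := by
    have : s ^ q = s ^ (q - 1) * s := by rw [Real.rpow_sub_one hs0.ne']; field_simp
    rw [this, hs, Real.rpow_inv_rpow (by positivity) hq1.ne']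
    field_simp
  have e2 : (2 * C) ^ (-(q - 1)⁻¹) / 4 * ε ^ (q / (q - 1)) = s * ε / 4 := by
    rw [hs, Real.div_rpow hε.le (by positivity), Real.rpow_neg (by positivity),
      show q / (q - 1) = (q - 1)⁻¹ + 1 by field_simp; ring, Real.rpow_add hε, Real.rpow_one]
    field_simp
  have key : ∀ φ ψ, M φ ≤ 1 → M ψ ≤ 1 → B (x + y) φ + s * B (x - y) ψ ≤ 2 + s * ε / 2 := by
    intro φ ψ hφ hψ
    have a1 := (h1 x (φ + s • ψ)).trans (mul_le_of_le_one_left (apply_nonneg M _) hx)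
    have a2 := (h1 y (φ - s • ψ)).trans (mul_le_of_le_one_left (apply_nonneg M _) hy)
    have a3 := smooth_pt hq.le hC.le hM hs0.le hφ hψ
    simp only [map_add, map_sub, map_smul, LinearMap.add_apply, LinearMap.sub_apply,
      smul_eq_mul] at a1 a2 ⊢
    linarith
  have b := h2 (x + y) (2 + s * ε / 2 - s * ε) fun φ hφ => by
    have := h2 (x - y) ((2 + s * ε / 2 - B (x + y) φ) / s) fun ψ hψ => by
      rw [le_div_iff₀ hs0]
      linarith [key φ ψ hφ hψ]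
    have := hxy.trans this
    rw [le_div_iff₀ hs0] at this
    linarith
  rw [e2, map_smul_eq_mul, Real.norm_of_nonneg (by norm_num)]
  linarith

theorem exists_push (L : W →ₗ[ℝ] Z) (hL : Function.Surjective L) (M : Seminorm ℝ W) :
    ∃ Q : Seminorm ℝ Z, (∀ w, Q (L w) ≤ M w) ∧
      ∀ z c, (∀ w, L w = z → c ≤ M w) → c ≤ Q z := by
  have hne : ∀ z, Nonempty {w // L w = z} := fun z => (hL z).elim fun w hw => ⟨⟨w, hw⟩⟩
  have h1 : ∀ z w, L w = z → ⨅ w : {w // L w = z}, M w ≤ M w := fun z w hw =>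
    ciInf_le (f := fun w : {w // L w = z} => M w)
      ⟨0, by rintro _ ⟨w, rfl⟩; exact apply_nonneg M _⟩ ⟨w, hw⟩
  have h2 : ∀ z c, (∀ w, L w = z → c ≤ M w) → c ≤ ⨅ w : {w // L w = z}, M w := fun z c h =>
    have := hne z
    le_ciInf fun w => h w w.2
  refine ⟨Seminorm.ofSMulLE (fun z => ⨅ w : {w // L w = z}, M w) ?_ ?_ ?_,
    fun w => h1 _ w rfl, h2⟩
  · exact le_antisymm ((h1 0 0 (map_zero L)).trans (map_zero M).le)
      (h2 0 0 fun w _ => apply_nonneg M w)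
  · intro z z'
    rw [← sub_le_iff_le_add]
    refine h2 _ _ fun w hw => ?_
    rw [sub_le_comm]
    refine h2 _ _ fun w' hw' => ?_
    linarith [h1 (z + z') (w + w') (by rw [map_add, hw, hw']), map_add_le_add M w w']
  · intro c z
    have k : ∀ w, L w = z → ⨅ w : {w // L w = c • z}, M w ≤ ‖c‖ * M w := fun w hw =>
      (h1 (c • z) (c • w) (by rw [map_smul, hw])).trans (map_smul_eq_mul M c w).le
    rcases (norm_nonneg c).eq_or_lt with h0 | h0
    · obtain ⟨w, hw⟩ := hL z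
      have := k w hw
      rw [← h0, zero_mul] at this ⊢
      exact this
    · rw [← div_le_iff₀' h0]
      exact h2 _ _ fun w hw => by rw [div_le_iff₀' h0]; exact k w hw

theorem push_smooth {L : W →ₗ[ℝ] Z} {M : Seminorm ℝ W} {Q : Seminorm ℝ Z}
    (h1 : ∀ w, Q (L w) ≤ M w) (h2 : ∀ z c, (∀ w, L w = z → c ≤ M w) → c ≤ Q z) {q C : ℝ}
    (hq : 0 < q) (hC : 0 < C)
    (hM : ∀ x y, M (x + y) ^ q + M (x - y) ^ q ≤ 2 * M x ^ q + C * M y ^ q) (x y : Z) :
    Q (x + y) ^ q + Q (x - y) ^ q ≤ 2 * Q x ^ q + C * Q y ^ q := by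
  have k : ∀ z c, (∀ w, L w = z → c ≤ M w ^ q) → c ≤ Q z ^ q := by
    intro z c h
    rcases le_total c 0 with hc | hc
    · exact hc.trans (Real.rpow_nonneg (apply_nonneg Q z) q)
    · rw [← Real.rpow_inv_le_iff_of_pos hc (apply_nonneg Q z) hq]
      exact h2 z _ fun w hw =>
        (Real.rpow_inv_le_iff_of_pos hc (apply_nonneg M w) hq).2 (h w hw)
  have := k x ((Q (x + y) ^ q + Q (x - y) ^ q - C * Q y ^ q) / 2) fun a ha => by
    have := k y ((Q (x + y) ^ q + Q (x - y) ^ q - 2 * M a ^ q) / C) fun b hb => by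
      have c1 := Real.rpow_le_rpow (apply_nonneg Q _) (h1 (a + b)) hq.le
      have c2 := Real.rpow_le_rpow (apply_nonneg Q _) (h1 (a - b)) hq.le
      rw [map_add, ha, hb] at c1
      rw [map_sub, ha, hb] at c2
      rw [div_le_iff₀ hC]
      linarith [hM a b]
    rw [div_le_iff₀ hC] at this
    linarith
  linarith

end polar

variable {X : Type*} [NormedAddCommGroup X] [NormedSpace ℝ X]

theorem markov_of_pow {M : Seminorm ℝ X} {a b q C : ℝ} (ha : 0 < a) (hb : 0 < b)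
    (hab : ∀ x, a * ‖x‖ ≤ M x ∧ M x ≤ b * ‖x‖) (hq : 1 ≤ q) (hq2 : q ≤ 2) (hC : 0 ≤ C)
    (hM : ∀ x y, M (x + y) ^ q + M (x - y) ^ q ≤ 2 * M x ^ q + C * M y ^ q) :
    MarkovTypeWith X q (b / a * (16 * C + 4)) := by
  intro S _ _ π P hπ _ hP hP1 hrev f t ht
  have h := npss hq hq2 hC hM hπ hP hP1 hrev f ht
  have hst : ∀ j, ∑ i, π i * P i j = π j := fun j => by
    simp only [hrev _ j, ← Finset.mul_sum, hP1, mul_one]
  have p0 := (pow_facts hP hP1 hst t).1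
  have h1 : a ^ q * ∑ i, ∑ j, π i * (P ^ t) i j * ‖f j - f i‖ ^ q ≤
      ∑ i, ∑ j, π i * (P ^ t) i j * M (f j - f i) ^ q := by
    simp only [Finset.mul_sum]
    refine Finset.sum_le_sum fun i _ => Finset.sum_le_sum fun j _ => ?_
    have := Real.rpow_le_rpow (by positivity) (hab (f j - f i)).1 (show 0 ≤ q by linarith)
    rw [Real.mul_rpow ha.le (norm_nonneg _)] at this
    linarith [mul_le_mul_of_nonneg_left this (mul_nonneg (hπ i) (p0 i j))]
  have h2 : ∑ i, ∑ j, π i * P i j * M (f j - f i) ^ q ≤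
      b ^ q * ∑ i, ∑ j, π i * P i j * ‖f j - f i‖ ^ q := by
    simp only [Finset.mul_sum]
    refine Finset.sum_le_sum fun i _ => Finset.sum_le_sum fun j _ => ?_
    have := Real.rpow_le_rpow (apply_nonneg M _) (hab (f j - f i)).2 (show 0 ≤ q by linarith)
    rw [Real.mul_rpow hb.le (norm_nonneg _)] at this
    linarith [mul_le_mul_of_nonneg_left this (mul_nonneg (hπ i) (hP i j))]
  have h3 : 0 ≤ ∑ i, ∑ j, π i * P i j * ‖f j - f i‖ ^ q :=
    Finset.sum_nonneg fun i _ => Finset.sum_nonneg fun j _ =>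
      mul_nonneg (mul_nonneg (hπ i) (hP i j)) (by positivity)
  have h4 : 16 * C + 4 ≤ (16 * C + 4) ^ q := by
    have := Real.rpow_le_rpow_of_exponent_le (show 1 ≤ 16 * C + 4 by linarith) hq
    rwa [Real.rpow_one] at this
  have h5 := mul_le_mul_of_nonneg_left h2 (show 0 ≤ (16 * C + 4) * t by positivity)
  have h6 := mul_le_mul_of_nonneg_right h4
    (show 0 ≤ t * (b ^ q * ∑ i, ∑ j, π i * P i j * ‖f j - f i‖ ^ q) by positivity)
  refine le_of_mul_le_mul_left ?_ (show 0 < a ^ q by positivity)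
  rw [Real.mul_rpow (by positivity) (by positivity), Real.div_rpow hb.le ha.le]
  have e : a ^ q * (b ^ q / a ^ q * (16 * C + 4) ^ q * t *
      ∑ i, ∑ j, π i * P i j * ‖f j - f i‖ ^ q) =
      (16 * C + 4) ^ q * (t * (b ^ q * ∑ i, ∑ j, π i * P i j * ‖f j - f i‖ ^ q)) := by
    field_simp
  linarith

theorem rho_le {N : Seminorm ℝ X} {τ c : ℝ} (hc : 0 ≤ c)
    (h : ∀ x y, N x = 1 → N y = 1 → (N (x + τ • y) + N (x - τ • y)) / 2 - 1 ≤ c) :
    rho N τ ≤ c :=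
  Real.sSup_le (by rintro _ ⟨x, y, hx, hy, rfl⟩; exact h x y hx hy) hc

theorem le_rho {N : Seminorm ℝ X} (τ : ℝ) {x y : X} (hx : N x = 1) (hy : N y = 1) :
    (N (x + τ • y) + N (x - τ • y)) / 2 - 1 ≤ rho N τ := by
  refine le_csSup ⟨‖τ‖, ?_⟩ ⟨x, y, hx, hy, rfl⟩
  rintro _ ⟨x, y, hx, hy, rfl⟩
  have h1 := map_add_le_add N x (τ • y)
  have h2 := map_sub_le_add N x (τ • y)
  rw [map_smul_eq_mul, hx, hy] at h1 h2
  linarith

theorem rho_nonneg (N : Seminorm ℝ X) (τ : ℝ) : 0 ≤ rho N τ :=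
  Real.sSup_nonneg (by
    rintro _ ⟨x, y, hx, _, rfl⟩
    linarith [mid_le N x (τ • y)])

theorem smooth_iff (N : Seminorm ℝ X) : UniformlySmooth N ↔
    ∀ ε : ℝ, 0 < ε → ∃ τ₀ : ℝ, 0 < τ₀ ∧ ∀ τ : ℝ, 0 < τ → τ ≤ τ₀ →
      ∀ x y : X, N x = 1 → N y = 1 → (N (x + τ • y) + N (x - τ • y)) / 2 - 1 ≤ ε * τ := by
  unfold UniformlySmooth
  rw [Metric.tendsto_nhdsWithin_nhds]
  constructor
  · intro h ε hε
    obtain ⟨δ, hδ, h⟩ := h ε hε
    refine ⟨δ / 2, by linarith, fun τ h0 h1 x y hx hy => (le_rho τ hx hy).trans ?_⟩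
    have := h (x := τ) h0 (by rw [Real.dist_eq, sub_zero, abs_of_pos h0]; linarith)
    rw [Real.dist_eq, sub_zero] at this
    exact (div_le_iff₀ h0).1 ((le_abs_self _).trans this.le)
  · intro h ε hε
    obtain ⟨δ, hδ, h⟩ := h (ε / 2) (by linarith)
    refine ⟨δ, hδ, fun τ h0 h1 => ?_⟩
    have h0' : 0 < τ := h0
    rw [Real.dist_eq, sub_zero, abs_of_pos h0'] at h1
    rw [Real.dist_eq, sub_zero, abs_of_nonneg (div_nonneg (rho_nonneg N τ) h0'.le),
      div_lt_iff₀ h0']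
    have := rho_le (by positivity) (h τ h0' h1.le)
    nlinarith

end Vale.Agent.N125
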