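import Mathlib
import Vale.Agent.N125.Dual
import Vale.Agent.P125.H266.Unif
import Vale.Agent.P125.H295.Conv

/-!
# P125: assembly
-/

namespace Vale.Agent.N125

universe u

theorem markovIneq {X : Type*} [NormedAddCommGroup X] {p K : ℝ} (h : MarkovTypeWith X p K) :
    _root_.P125.MarkovIneq (fun x : X => ‖x‖) p K := by
  intro S _ _ π P hc f t ht
  have := h S π P hc.pi_nonneg hc.pi_sum hc.P_nonneg hc.P_sum hc.reversible f t ht
  simpa only [_root_.P125.moment, pow_one] using this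

theorem isQuasiNorm (X : Type*) [NormedAddCommGroup X] [NormedSpace ℝ X] :
    _root_.P125.IsQuasiNorm 1 (fun x : X => ‖x‖) :=
  ⟨fun x => norm_nonneg x, fun c x => norm_smul c x, fun x y => by
    rw [one_mul]; exact norm_add_le x y⟩

theorem MarkovTypeWith.mono {X : Type*} [NormedAddCommGroup X] {p K K' : ℝ} (hp : 0 ≤ p)
    (hK : 0 ≤ K) (hKK : K ≤ K') (h : MarkovTypeWith X p K) : MarkovTypeWith X p K' := by
  intro S _ _ π P hπ h1 hP hP1 hrev f t ht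
  refine (h S π P hπ h1 hP hP1 hrev f t ht).trans (mul_le_mul_of_nonneg_right
    (mul_le_mul_of_nonneg_right (Real.rpow_le_rpow hK hKK hp) (Nat.cast_nonneg t)) ?_)
  exact Finset.sum_nonneg fun i _ => Finset.sum_nonneg fun j _ =>
    mul_nonneg (mul_nonneg (hπ i) (hP i j)) (by positivity)

theorem question {X : Type*} [NormedAddCommGroup X] [NormedSpace ℝ X] {p : ℝ} (hp : 1 < p)
    (h : MarkovType X p) :
    (∃ N : Seminorm ℝ X, Equivalent N ∧ UniformlySmooth N) ∧ Superreflexive X := by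
  obtain ⟨K, hK, h⟩ := h
  obtain ⟨h1, N, hN, h2⟩ := _root_.P125.superreflexive_of_hasMarkovType hp
    ⟨by linarith, K, hK, markovIneq h⟩
  exact ⟨⟨N, hN, (smooth_iff N).2 h2⟩, h1⟩

theorem markov_of_smooth {X : Type u} [NormedAddCommGroup X] [NormedSpace ℝ X] {N : Seminorm ℝ X}
    (hN : Equivalent N) (h : _root_.P125.UniformlySmoothNorm N) :
    ∃ p, 1 < p ∧ MarkovType X p := by
  obtain ⟨τ, hτ, h⟩ := h (1 / 20) (by norm_num)
  obtain ⟨q, C, hq, hq2, hC, H⟩ := pisier.{u} hτ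
  obtain ⟨M, hM, hM2⟩ := H X N h
  obtain ⟨a, b, ha, hb, hab⟩ := hN
  exact ⟨q, hq, _, by positivity, markov_of_pow ha (show 0 < 2 * b by positivity)
    (fun x => ⟨(hab x).1.trans (hM x).1, by linarith [(hM x).2, (hab x).2]⟩) hq.le hq2 hC.le hM2⟩

theorem markov_of_superreflexive {X : Type u} [NormedAddCommGroup X] [NormedSpace ℝ X]
    (h : Superreflexive X) : ∃ p, 1 < p ∧ MarkovType X p := by
  obtain ⟨t, c, ht, hc, h1⟩ := _root_.P125.oneTime_of_superreflexive (X := X) h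
    (show (1 : ℝ) < 2 by norm_num)
  have hF : _root_.P125.CoarseLipschitzEmbedding (fun x : X => x) :=
    ⟨0, 1, 1, one_pos, fun x y _ => by rw [one_mul]; exact ⟨le_rfl, le_rfl⟩⟩
  obtain ⟨_, N, hN, h2⟩ := _root_.P125.superreflexive_of_oneTime hF (by norm_num) ht hc h1
  exact markov_of_smooth hN h2

theorem uniform {D : ℝ} {δ τ : ℝ → ℝ} (hpos : ∀ ε, 0 < ε → 0 < δ ε ∧ 0 < τ ε) :
    ∃ r s D' C c K : ℝ, 1 < r ∧ 2 ≤ s ∧ 0 < c ∧ 0 ≤ K ∧
      ∀ (X : Type u) [NormedAddCommGroup X] [NormedSpace ℝ X],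
        _root_.P125.H266.Good D δ τ (fun x : X => ‖x‖) →
        (∃ N : Seminorm ℝ X, (∀ x, N x ≤ ‖x‖ ∧ ‖x‖ ≤ D' * N x) ∧
          ∀ τ, 0 < τ → rho N τ ≤ C * τ ^ r) ∧
        (∃ N : Seminorm ℝ X, (∀ x, N x ≤ ‖x‖ ∧ ‖x‖ ≤ D' * N x) ∧
          ∀ ε, 0 < ε → ∀ x y, N x ≤ 1 → N y ≤ 1 → ε ≤ N (x - y) →
            N ((1 / 2 : ℝ) • (x + y)) ≤ 1 - c * ε ^ s) ∧
        MarkovTypeWith X r K ∧ MarkovTypeWith (StrongDual ℝ X) r K ∧
        ∀ (Y : Submodule ℝ X) [IsClosed (Y : Set X)], MarkovTypeWith (X ⧸ Y) r K := by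
  obtain ⟨q, C, hq, hq2, hC, H⟩ := pisier.{u} (τ := min (τ (1 / 20)) (δ (1 / 10)))
    (lt_min (hpos _ (by norm_num)).2 (hpos _ (by norm_num)).1)
  set E := max D 1 with hE
  have hE1 : 1 ≤ E := le_max_right _ _
  have hDE : D ≤ E := le_max_left _ _
  have hE0 : 0 < E := by linarith
  refine ⟨q, q / (q - 1), 2 * E, C, (2 * C) ^ (-(q - 1)⁻¹) / 4, 2 * E * (16 * C + 4), hq,
    by rw [le_div_iff₀ (by linarith)]; linarith, by positivity, by positivity, ?_⟩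
  rintro X _ _ ⟨N₁, N₂, h1, h2, hc, hs⟩
  replace h1 : ∀ x, N₁ x ≤ ‖x‖ ∧ ‖x‖ ≤ E * N₁ x := fun x =>
    ⟨(h1 x).1, (h1 x).2.trans (mul_le_mul_of_nonneg_right hDE (apply_nonneg N₁ x))⟩
  replace h2 : ∀ x, N₂ x ≤ ‖x‖ ∧ ‖x‖ ≤ E * N₂ x := fun x =>
    ⟨(h2 x).1, (h2 x).2.trans (mul_le_mul_of_nonneg_right hDE (apply_nonneg N₂ x))⟩
  obtain ⟨M, hM, hM2⟩ := H X N₂ fun s h0 h1 =>
    hs (1 / 20) (by norm_num) s h0 (h1.trans (min_le_left _ _))
  have hMa : ∀ x, E⁻¹ * ‖x‖ ≤ M x ∧ M x ≤ 2 * ‖x‖ := fun x =>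
    ⟨by rw [inv_mul_le_iff₀ hE0]
        exact (h2 x).2.trans (mul_le_mul_of_nonneg_left (hM x).1 hE0.le),
      by linarith [(hM x).2, (h2 x).1]⟩
  have eK : 2 / E⁻¹ * (16 * C + 4) = 2 * E * (16 * C + 4) := by rw [div_inv_eq_mul]
  -- the dual space
  obtain ⟨P, hP1, hP2⟩ := exists_polar (topDualPairing ℝ X) N₁ fun φ => ⟨‖φ‖ * E, fun z hz =>
    (le_abs_self _).trans ((φ.le_opNorm z).trans (mul_le_mul_of_nonneg_left
      ((h1 z).2.trans (mul_le_of_le_one_right hE0.le hz)) (norm_nonneg φ)))⟩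
  have hPa : ∀ φ : StrongDual ℝ X, ‖φ‖ ≤ P φ ∧ P φ ≤ E * ‖φ‖ := fun φ =>
    ⟨φ.opNorm_le_bound (apply_nonneg P φ) fun x => by
      have a1 := hP1 φ x
      have a2 := hP1 φ (-x)
      rw [map_neg, map_neg_eq_map] at a2
      have a3 := mul_le_mul_of_nonneg_left (h1 x).1 (apply_nonneg P φ)
      rw [topDualPairing_apply] at a1 a2
      rw [Real.norm_eq_abs, abs_le]
      constructor <;> linarith,
    hP2 φ _ fun z hz => (le_abs_self _).trans ((φ.le_opNorm z).trans (by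
      rw [mul_comm]
      exact mul_le_mul_of_nonneg_right ((h1 z).2.trans (mul_le_of_le_one_right hE0.le hz))
        (norm_nonneg φ)))⟩
  obtain ⟨Q, hQ, hQ2⟩ := H (StrongDual ℝ X) P fun s h0 h1 =>
    polar_smooth hP1 hP2 (hc (1 / 10) (by norm_num) (by norm_num)) s h0
      (h1.trans (min_le_right _ _))
  have hQa : ∀ φ : StrongDual ℝ X, 1 * ‖φ‖ ≤ Q φ ∧ Q φ ≤ 2 * E * ‖φ‖ := fun φ =>
    ⟨by linarith [(hPa φ).1, (hQ φ).1], by linarith [(hPa φ).2, (hQ φ).2]⟩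
  have hb : ∀ (x : X) (φ : StrongDual ℝ X), Q φ ≤ 1 → (topDualPairing ℝ X).flip x φ ≤ ‖x‖ :=
    fun x φ hφ => (le_abs_self _).trans ((φ.le_opNorm x).trans
      (mul_le_of_le_one_left (norm_nonneg x) (by linarith [(hQa φ).1])))
  obtain ⟨R, hR1, hR2⟩ := exists_polar (topDualPairing ℝ X).flip Q fun x => ⟨‖x‖, hb x⟩
  refine ⟨⟨(1 / 2 : NNReal) • M, fun x => ?_, fun t ht => rho_le (by positivity) ?_⟩,
    ⟨R, fun x => ⟨hR2 x _ (hb x), ?_⟩, fun ε hε => polar_convex hR1 hR2 hq hC hQ2 hε⟩,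
    eK ▸ markov_of_pow (inv_pos.2 hE0) two_pos hMa hq.le hq2 hC.le hM2, ?_, ?_⟩
  · have := (hMa x).1
    rw [inv_mul_le_iff₀ hE0] at this
    rw [smul_apply, NNReal.smul_def]
    push_cast
    rw [smul_eq_mul]
    constructor <;> linarith [(hMa x).2]
  · intro x y hx hy
    have a := smooth_pt hq.le hC.le hM2 ht.le (x := (1 / 2 : ℝ) • x) (y := (1 / 2 : ℝ) • y)
    simp only [smul_apply, NNReal.smul_def, smul_eq_mul] at hx hy ⊢
    push_cast at hx hy ⊢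
    rw [smul_comm t, ← smul_add, ← smul_sub] at a
    simp only [map_smul_eq_mul, Real.norm_of_nonneg (show (0 : ℝ) ≤ 1 / 2 by norm_num)] at a
    have : 0 ≤ C * t ^ q := by positivity
    linarith [a hx.le hy.le]
  · obtain ⟨φ, hφ1, hφ2⟩ := exists_dual_vector'' ℝ x
    have a1 := hR1 x φ
    have a2 := mul_le_mul_of_nonneg_left ((hQa φ).2.trans
      (mul_le_of_le_one_right (by positivity) hφ1)) (apply_nonneg R x)
    have a3 : (topDualPairing ℝ X).flip x φ = ‖x‖ := hφ2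
    linarith
  · have := markov_of_pow one_pos (show 0 < 2 * E by positivity) hQa hq.le hq2 hC.le hQ2
    rwa [div_one] at this
  · intro Y _
    obtain ⟨T, hT1, hT2⟩ := exists_push Y.mkQ Y.mkQ_surjective M
    refine eK ▸ markov_of_pow (inv_pos.2 hE0) two_pos (fun z => ⟨hT2 z _ fun w hw => ?_, ?_⟩)
      hq.le hq2 hC.le (push_smooth hT1 hT2 (by linarith) hC hM2)
    · refine le_trans (mul_le_mul_of_nonneg_left ?_ (inv_pos.2 hE0).le) (hMa w).1
      rw [← hw]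
      exact Submodule.Quotient.norm_mk_le Y w
    · refine le_of_forall_pos_le_add fun ε hε => ?_
      obtain ⟨w, hw, hw2⟩ := Submodule.Quotient.norm_mk_lt z (half_pos hε)
      have := hT1 w
      rw [Submodule.mkQ_apply, hw] at this
      linarith [(hMa w).2]

theorem dual_iff (X : Type u) [NormedAddCommGroup X] [NormedSpace ℝ X] :
    (∃ p, 1 < p ∧ MarkovType X p) ↔ ∃ p, 1 < p ∧ MarkovType (StrongDual ℝ X) p := by
  constructor
  · rintro ⟨p, hp, K, _, h⟩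
    obtain ⟨D, δ, τ, hpos, H⟩ := _root_.P125.H266.uniform_markov.{u} (K := K) hp le_rfl
    obtain ⟨r, _, _, _, _, K', hr, _, _, hK', H'⟩ := uniform.{u} (D := D) hpos
    exact ⟨r, hr, K', hK', (H' X (H X _ (isQuasiNorm X) (markovIneq h))).2.2.2.1⟩
  · rintro ⟨p, hp, h⟩
    obtain ⟨N, hN, h2⟩ := _root_.P125.smooth_of_dual (X := X) (question hp h).2
    exact markov_of_smooth hN h2

end Vale.Agent.N125
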