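import Mathlib
import Vale.Agent.N125.Main

open Vale.Agent.N125

universe u

/-- (1) The question: Markov type `p > 1` gives an equivalent uniformly smooth norm and
superreflexivity. (2) Nontrivial Markov type is equivalent to each of these properties, and to
nontrivial Markov type of the dual space. (3) Power type with constants depending only on `p` and
`K`; the dual space and all quotients have Markov type `r > 1` with uniform constants. (4) A gain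
at one single time gives Markov type `r > 1`. -/
theorem Vale.Agent.N125.oldPowerType :
    (∀ (X : Type u) [NormedAddCommGroup X] [NormedSpace ℝ X] (p : ℝ), 1 < p → MarkovType X p →
      (∃ N : Seminorm ℝ X, Equivalent N ∧ UniformlySmooth N) ∧ Superreflexive X) ∧
    (∀ (X : Type u) [NormedAddCommGroup X] [NormedSpace ℝ X],
      ((∃ p, 1 < p ∧ MarkovType X p) ↔ Superreflexive X) ∧
      ((∃ p, 1 < p ∧ MarkovType X p) ↔ ∃ N : Seminorm ℝ X, Equivalent N ∧ UniformlySmooth N) ∧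
      ((∃ p, 1 < p ∧ MarkovType X p) ↔ ∃ p, 1 < p ∧ MarkovType (StrongDual ℝ X) p)) ∧
    (∀ p K : ℝ, 1 < p → ∃ r s D C c K' : ℝ, 1 < r ∧ 2 ≤ s ∧ 0 < c ∧ 0 ≤ K' ∧
      ∀ (X : Type u) [NormedAddCommGroup X] [NormedSpace ℝ X], MarkovTypeWith X p K →
        (∃ N : Seminorm ℝ X, (∀ x, N x ≤ ‖x‖ ∧ ‖x‖ ≤ D * N x) ∧
          ∀ τ, 0 < τ → rho N τ ≤ C * τ ^ r) ∧
        (∃ N : Seminorm ℝ X, (∀ x, N x ≤ ‖x‖ ∧ ‖x‖ ≤ D * N x) ∧
          ∀ ε, 0 < ε → ∀ x y, N x ≤ 1 → N y ≤ 1 → ε ≤ N (x - y) →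
            N ((1 / 2 : ℝ) • (x + y)) ≤ 1 - c * ε ^ s) ∧
        MarkovTypeWith (StrongDual ℝ X) r K' ∧
        ∀ (Y : Submodule ℝ X) [IsClosed (Y : Set X)], MarkovTypeWith (X ⧸ Y) r K') ∧
    (∀ (p c : ℝ) (t : ℕ), 1 ≤ p → 2 ≤ t → c < (t : ℝ) ^ p → ∃ r K : ℝ, 1 < r ∧ 0 ≤ K ∧
      ∀ (X : Type u) [NormedAddCommGroup X] [NormedSpace ℝ X],
        OneTime X p t c → MarkovTypeWith X r K) := by
  refine ⟨fun X _ _ p hp h => question hp h, fun X _ _ => ⟨⟨fun ⟨p, hp, h⟩ => (question hp h).2,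
    markov_of_superreflexive⟩, ⟨fun ⟨p, hp, h⟩ => (question hp h).1,
    fun ⟨N, hN, h⟩ => markov_of_smooth hN ((smooth_iff N).1 h)⟩, dual_iff X⟩, ?_, ?_⟩
  · intro p K hp
    obtain ⟨D, δ, τ, hpos, H⟩ := _root_.P125.H266.uniform_markov.{u} (K := K) hp le_rfl
    obtain ⟨r, s, D', C, c, K', h1, h2, h3, h4, H'⟩ := uniform.{u} (D := D) hpos
    refine ⟨r, s, D', C, c, K', h1, h2, h3, h4, fun X _ _ h => ?_⟩
    have := H' X (H X _ (isQuasiNorm X) (markovIneq h))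
    exact ⟨this.1, this.2.1, this.2.2.2⟩
  · intro p c t hp ht hc
    obtain ⟨D, δ, τ, hpos, H⟩ := _root_.P125.H266.uniform_quasi.{u} hp le_rfl ht hc
    obtain ⟨r, _, _, _, _, K', h1, _, _, h4, H'⟩ := uniform.{u} (D := D) hpos
    exact ⟨r, K', h1, h4, fun X _ _ h => (H' X (H X _ (isQuasiNorm X)
      fun S _ _ P hP f => h S P hP.nonneg hP.row_sum hP.symm f)).2.2.1⟩
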